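import Crest.Agent.Sw.Defs

/-! Row 299: the switch chain is irreducible. -/

set_option autoImplicit false
set_option linter.unusedSectionVars false
open Finset

namespace Crest.Agent.Sw

namespace C
variable {V : Type} [Fintype V] [DecidableEq V]

/-- the graphs agree on the pairs that are not inside `U` -/
def Ag (U : Finset V) (G G' : SimpleGraph V) : Prop :=
  ∀ a b, ¬ (a ∈ U ∧ b ∈ U) → (G.Adj a b ↔ G'.Adj a b)

lemma Ag.symm {U : Finset V} {G G' : SimpleGraph V} (h : Ag U G G') : Ag U G' G :=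
  fun a b hab => (h a b hab).symm

lemma Ag.deg {U : Finset V} {G G' : SimpleGraph V} (h : Ag U G G') {d : V → ℕ} (hG : G ∈ Om d)
    (hG' : G' ∈ Om d) (a : V) : #(nb G a ∩ U) = #(nb G' a ∩ U) := by
  have e : nb G a \ U = nb G' a \ U := by
    ext b
    simp only [mem_sdiff, mem_nb]
    exact and_congr_left fun hb => h a b fun h => hb h.2
  have h1 := card_sdiff_add_card_inter (nb G a) U
  have h2 := card_sdiff_add_card_inter (nb G' a) U
  rw [mem_Om.1 hG a] at h1
  rw [mem_Om.1 hG' a, ← e] at h2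
  omega

lemma step {U : Finset V} {G G' : SimpleGraph V} (h : Ag U G G')
    {v a b : V} (ha : G.Adj v a) (ha' : ¬ G'.Adj v a) (hb : ¬ G.Adj v b) (hb' : G'.Adj v b)
    (hd : #(nb G a ∩ U) ≤ #(nb G b ∩ U)) :
    ∃ c, Dis v c a b ∧ Ag U (sw v c a b G) G' ∧
      #(nb (sw v c a b G) v \ nb G' v) < #(nb G v \ nb G' v) := by
  have hU : v ∈ U ∧ a ∈ U := by
    by_contra hn
    exact ha' ((h v a hn).1 ha)
  have hU' : v ∈ U ∧ b ∈ U := by
    by_contra hn
    exact hb ((h v b hn).2 hb')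
  have hab : a ≠ b := fun e => hb (e ▸ ha)
  obtain ⟨c, hc, h1, h2, h3⟩ : ∃ c ∈ U, G.Adj b c ∧ ¬ G.Adj a c ∧ c ≠ a := by
    by_contra! hn
    have hv : v ∈ nb G a ∩ U := mem_inter.2 ⟨mem_nb.2 ha.symm, hU.1⟩
    have : #(nb G b ∩ U) ≤ #((nb G a ∩ U).erase v) := by
      refine card_le_card_of_injOn (Equiv.swap a b) (fun y hy => ?_)
        (Equiv.injective _).injOn
      simp only [coe_inter, Set.mem_inter_iff, mem_coe, mem_nb] at hy
      simp only [mem_coe, mem_erase, mem_inter, mem_nb]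
      by_cases hya : y = a
      · subst hya
        rw [Equiv.swap_apply_left]
        exact ⟨hb'.ne', hy.1.symm, hU'.2⟩
      · rw [Equiv.swap_apply_of_ne_of_ne hya hy.1.ne']
        refine ⟨fun e => hb (e ▸ hy.1.symm), ?_, hy.2⟩
        by_contra h2
        exact hya (hn y hy.2 hy.1 h2)
    have := card_erase_lt_of_mem hv
    omega
  have hD : Dis v c a b :=
    ⟨fun e => hb (e ▸ h1.symm), ha.ne, hb'.ne, h3, h1.ne', hab⟩
  have hC : Cen v c a b G :=
    ⟨iff_of_true ha h1.symm, iff_of_false hb fun h => h2 h.symm, fun h => hb (h.1 ha)⟩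
  refine ⟨c, hD, fun p q hpq => ?_, ?_⟩
  · rw [sw_adj_of_not]
    · exact h p q hpq
    · rintro (⟨rfl | rfl, rfl | rfl⟩ | ⟨rfl | rfl, rfl | rfl⟩) <;> tauto
  · refine lt_of_le_of_lt (card_le_card fun y hy => ?_)
      (card_erase_lt_of_mem (a := a) (mem_sdiff.2 ⟨mem_nb.2 ha, by rwa [mem_nb]⟩))
    simp only [mem_sdiff, mem_nb, mem_erase] at hy ⊢
    have hya : y ≠ a := by
      rintro rfl
      exact (sw_adj_of hD hC (by simp [Blk])).1 hy.1 ha
    have hyb : y ≠ b := fun e => hy.2 (e ▸ hb')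
    refine ⟨hya, (sw_adj_of_not G ?_).1 hy.1, hy.2⟩
    rintro (⟨-, h | h⟩ | ⟨-, h | h⟩)
    exacts [hya h, hyb h, ha.ne h, hb'.ne h]

end C

open C in
theorem conn : CStmt := by
  intro V _ _ d f hf
  suffices H : ∀ U : Finset V, ∀ G ∈ Om d, ∀ G' ∈ Om d, Ag U G G' → f G = f G' from
    fun G hG G' hG' => H univ G hG G' hG' fun a b h => absurd ⟨mem_univ a, mem_univ b⟩ h
  intro U
  induction U using Finset.induction_on with
  | empty =>
    intro G _ G' _ h
    congr 1
    ext a b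
    exact h a b (by simp)
  | insert v U _ ih =>
    suffices H : ∀ m : ℕ, ∀ G ∈ Om d, ∀ G' ∈ Om d, Ag (insert v U) G G' →
        #(nb G v \ nb G' v) = m → f G = f G' from fun G hG G' hG' h => H _ G hG G' hG' h rfl
    intro m
    induction m using Nat.strong_induction_on with
    | _ m ihm =>
    intro G hG G' hG' h hm
    have cm : ∀ {G G' : SimpleGraph V}, G ∈ Om d → G' ∈ Om d →
        #(nb G v \ nb G' v) = #(nb G' v \ nb G v) := fun hG hG' =>
      card_sdiff_comm (by rw [mem_Om.1 hG, mem_Om.1 hG'])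
    rcases Nat.eq_zero_or_pos m with rfl | hpos
    · have e : nb G v = nb G' v := Subset.antisymm (sdiff_eq_empty_iff_subset.1 (card_eq_zero.1 hm))
        (sdiff_eq_empty_iff_subset.1 (card_eq_zero.1 (cm hG hG' ▸ hm)))
      have e' : ∀ b, G.Adj v b ↔ G'.Adj v b := fun b => by rw [← mem_nb, e, mem_nb]
      refine ih G hG G' hG' fun a b hab => ?_
      by_cases ha : a = v
      · rw [ha, e']
      by_cases hb : b = v
      · rw [hb, G.adj_comm, G'.adj_comm, e']
      exact h a b (by simpa [ha, hb] using hab)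
    · obtain ⟨a, ha⟩ := card_pos.1 (hm ▸ hpos)
      obtain ⟨b, hb⟩ := card_pos.1 (cm hG hG' ▸ hm ▸ hpos)
      simp only [mem_sdiff, mem_nb] at ha hb
      rcases le_total #(nb G a ∩ insert v U) #(nb G b ∩ insert v U) with hd | hd
      · obtain ⟨c, hD, h1, h2⟩ := step h ha.1 ha.2 hb.2 hb.1 hd
        rw [← hf _ _ _ _ hD G hG]
        exact ihm _ (hm ▸ h2) _ (sw_mem hD hG) _ hG' h1 rfl
      · rw [h.deg hG hG', h.deg hG hG'] at hd
        obtain ⟨c, hD, h1, h2⟩ := step h.symm hb.1 hb.2 ha.2 ha.1 hd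
        rw [← hf _ _ _ _ hD G' hG']
        exact (ihm _ (by rw [← hm, cm hG hG']; exact h2) _ (sw_mem hD hG') _ hG h1 rfl).symm

end Crest.Agent.Sw
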