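import Crest.Agent.Sw.FinalA

/-! 299-F: from the Poincaré inequality for `Dir` to the statement S0453. -/

set_option autoImplicit false
open Finset Crest.SwitchChain

namespace Crest.Agent.Sw

namespace FA

variable {n : ℕ}

/-- the matching `ab, cd` -/
def mt (a b c d : Fin n) : Finset (Edge n) := univ.filter fun e => e.1 = s(a, b) ∨ e.1 = s(c, d)

theorem mem_mt {a b c d : Fin n} {e : Edge n} : e ∈ mt a b c d ↔ e.1 = s(a, b) ∨ e.1 = s(c, d) := by
  simp [mt]

def ed {a b : Fin n} (h : a ≠ b) : Edge n := ⟨s(a, b), by simpa using h⟩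

theorem mt_eq {a b c d : Fin n} (h : a ≠ b) (h' : c ≠ d) : mt a b c d = {ed h, ed h'} := by
  ext e; simp [mem_mt, ed, Subtype.ext_iff]

theorem mem_pm {S : Finset (Fin n)} {F : Finset (Edge n)} : F ∈ pmSet S ↔ F.card = 2 ∧
    (∀ e ∈ F, ∀ v : Fin n, v ∈ e.1 → v ∈ S) ∧ ∀ v ∈ S, (F.filter fun e => v ∈ e.1).card = 1 := by
  simp [pmSet]

theorem mt_mem {a b c d : Fin n} (h : Dis a b c d) : mt a b c d ∈ pmSet {a, b, c, d} := by
  obtain ⟨h1, h2, h3, h4, h5, h6⟩ := h
  have hne : ed h1 ≠ ed h6 := by simp [ed, Subtype.ext_iff, h2, h3]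
  rw [mem_pm, mt_eq h1 h6]
  refine ⟨card_pair hne, ?_, ?_⟩
  · intro e he v hv
    simp only [mem_insert, mem_singleton] at he ⊢
    rcases he with rfl | rfl <;> simp only [ed, Sym2.mem_iff] at hv <;> tauto
  · intro v hv
    simp only [mem_insert, mem_singleton] at hv
    rw [filter_insert, filter_singleton]
    rcases hv with rfl | rfl | rfl | rfl <;>
      simp [ed, h1, h2, h3, h4, h5, h6, h1.symm, h2.symm, h3.symm, h4.symm, h5.symm, h6.symm]

theorem pm_char {a b c d : Fin n} (h : Dis a b c d) {F : Finset (Edge n)}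
    (hF : F ∈ pmSet {a, b, c, d}) {e : Edge n} (he : e ∈ F) (hab : e.1 = s(a, b)) :
    F = mt a b c d := by
  obtain ⟨h1, h2, h3, h4, h5, h6⟩ := h
  obtain ⟨c2, -, c1⟩ := mem_pm.1 hF
  have ex : ∀ v ∈ ({a, b, c, d} : Finset (Fin n)), ∃ e' ∈ F, v ∈ e'.1 := by
    intro v hv
    obtain ⟨e', he'⟩ := card_pos.1 (by rw [c1 v hv]; norm_num :
      0 < (F.filter fun e => v ∈ e.1).card)
    exact ⟨e', (mem_filter.1 he').1, (mem_filter.1 he').2⟩
  obtain ⟨e1, m1, v1⟩ := ex c (by simp)
  obtain ⟨e2, m2, v2⟩ := ex d (by simp)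
  have n1 : e1 ≠ e := by
    rintro rfl; rw [hab] at v1; simp [h2.symm, h4.symm] at v1
  have n2 : e2 ≠ e := by
    rintro rfl; rw [hab] at v2; simp [h3.symm, h5.symm] at v2
  have hF' : F = {e, e1} := by
    symm
    apply eq_of_subset_of_card_le
    · intro x hx
      simp only [mem_insert, mem_singleton] at hx
      rcases hx with rfl | rfl <;> assumption
    · rw [c2, card_pair n1.symm]
  have e12 : e2 = e1 := by
    rw [hF'] at m2
    simpa [n2] using m2
  subst e12
  have h7 : e2.1 = s(c, d) := (Sym2.mem_and_mem_iff h6).1 ⟨v1, v2⟩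
  rw [hF']
  ext x
  rw [mem_mt, ← hab, ← h7]
  simp [Subtype.ext_iff]

theorem pm_eq {a b c d : Fin n} (h : Dis a b c d) :
    pmSet ({a, b, c, d} : Finset (Fin n)) = {mt a b c d, mt a c b d, mt a d b c} := by
  have h' := h
  obtain ⟨h1, h2, h3, h4, h5, h6⟩ := h'
  have d2 : Dis a c b d := ⟨h2, h1, h3, h4.symm, h6, h5⟩
  have d3 : Dis a d b c := ⟨h3, h1, h2, h5.symm, h6.symm, h4⟩
  have s2 : ({a, c, b, d} : Finset (Fin n)) = {a, b, c, d} := by ext; simp; tauto
  have s3 : ({a, d, b, c} : Finset (Fin n)) = {a, b, c, d} := by ext; simp; tauto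
  ext F
  simp only [mem_insert, mem_singleton]
  constructor
  · intro hF
    obtain ⟨-, c0, c1⟩ := mem_pm.1 hF
    obtain ⟨e, he⟩ := card_pos.1 (by rw [c1 a (by simp)]; norm_num :
      0 < (F.filter fun e => a ∈ e.1).card)
    obtain ⟨m, v⟩ := mem_filter.1 he
    obtain ⟨y, hy⟩ := Sym2.mem_iff_exists.1 v
    have hy' := c0 e m y (by rw [hy]; simp)
    simp only [mem_insert, mem_singleton] at hy'
    rcases hy' with rfl | rfl | rfl | rfl
    · exact absurd (by rw [hy]; simp) e.2
    · exact Or.inl (pm_char h hF m hy)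
    · exact Or.inr (Or.inl (pm_char d2 (s2 ▸ hF) m hy))
    · exact Or.inr (Or.inr (pm_char d3 (s3 ▸ hF) m hy))
  · rintro (rfl | rfl | rfl)
    exacts [mt_mem h, s2 ▸ mt_mem d2, s3 ▸ mt_mem d3]

theorem exists_four {S : Finset (Fin n)} (h : S.card = 4) :
    ∃ a b c d, Dis a b c d ∧ S = {a, b, c, d} := by
  obtain ⟨a, T, ha, rfl, hT⟩ := card_eq_succ.1 h
  obtain ⟨b, c, d, h1, h2, h3, rfl⟩ := card_eq_three.1 hT
  simp only [mem_insert, mem_singleton, not_or] at ha
  exact ⟨a, b, c, d, ⟨ha.1, ha.2.1, ha.2.2, h1, h2, h3⟩, rfl⟩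

theorem card_four {a b c d : Fin n} (h : Dis a b c d) :
    ({a, b, c, d} : Finset (Fin n)).card = 4 := by
  obtain ⟨h1, h2, h3, h4, h5, h6⟩ := h
  rw [card_insert_of_notMem (by simp [*]), card_insert_of_notMem (by simp [*]), card_pair h6]

theorem mt_disj {a b c d : Fin n} (h : Dis a b c d) : Disjoint (mt a b c d) (mt a c b d) := by
  obtain ⟨h1, h2, h3, h4, h5, h6⟩ := h
  rw [disjoint_left]
  intro e m m'
  rw [mem_mt] at m m'
  rcases m with m | m <;> rw [m] at m' <;>
    simp [h1, h2, h3, h4, h5, h6, h1.symm, h2.symm, h3.symm, h4.symm] at m'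

theorem mt_swap (a b c d : Fin n) : mt a b c d = mt a b d c := by
  ext e; rw [mem_mt, mem_mt, Sym2.eq_swap (a := c)]

theorem mt_ne {a b c d : Fin n} (h : Dis a b c d) : mt a b c d ≠ mt a c b d := by
  intro e
  have := mt_disj h
  rw [← e, disjoint_self] at this
  have h2 : ed h.1 ∈ mt a b c d := mem_mt.2 (Or.inl rfl)
  rw [this] at h2
  simp at h2

theorem pm_facts {S : Finset (Fin n)} (h : S.card = 4) :
    (pmSet S).card = 3 ∧ ∀ F ∈ pmSet S, ∀ F' ∈ pmSet S, F' ≠ F → Disjoint F F' := by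
  obtain ⟨a, b, c, d, h0, hS⟩ := exists_four h
  clear h
  subst hS
  have h := h0
  have h' := h
  obtain ⟨h1, h2, h3, h4, h5, h6⟩ := h'
  have d2 : Dis a b d c := ⟨h1, h3, h2, h5, h4, h6.symm⟩
  have d3 : Dis a c d b := ⟨h2, h3, h1, h6, h4.symm, h5.symm⟩
  have j1 := mt_disj h
  have j2 : Disjoint (mt a b c d) (mt a d b c) := by rw [mt_swap]; exact mt_disj d2
  have j3 : Disjoint (mt a c b d) (mt a d b c) := by
    rw [mt_swap, mt_swap a d]; exact mt_disj d3
  have n1 := mt_ne h
  have n2 : mt a b c d ≠ mt a d b c := by rw [mt_swap]; exact mt_ne d2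
  have n3 : mt a c b d ≠ mt a d b c := by rw [mt_swap, mt_swap a d]; exact mt_ne d3
  rw [pm_eq h]
  refine ⟨card_eq_three.2 ⟨_, _, _, n1, n2, n3, rfl⟩, ?_⟩
  intro F hF F' hF' hne
  simp only [mem_insert, mem_singleton] at hF hF'
  rcases hF with rfl | rfl | rfl <;> rcases hF' with rfl | rfl | rfl <;>
    first | exact absurd rfl hne | assumption | (symm; assumption)

theorem pm_deg {S : Finset (Fin n)} {F : Finset (Edge n)} (hF : F ∈ pmSet S) (v : Fin n) :
    deg F v = if v ∈ S then 1 else 0 := by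
  obtain ⟨-, c0, c1⟩ := mem_pm.1 hF
  split_ifs with hv
  · exact c1 v hv
  · rw [deg, card_eq_zero, filter_eq_empty_iff]
    exact fun e he h => hv (c0 e he v h)

theorem res_deg {S : Finset (Fin n)} {F F' : Finset (Edge n)} (hF : F ∈ pmSet S)
    (hF' : F' ∈ pmSet S) (E : Finset (Edge n)) (v : Fin n) :
    deg (switchResult E F F') v = deg E v := by
  unfold switchResult
  split_ifs with h
  · have e1 := pm_deg hF v
    have e2 := pm_deg hF' v
    unfold deg at *
    rw [filter_union, card_union_of_disjoint (disjoint_filter_filter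
      (disjoint_of_subset_left sdiff_subset h.2.symm)), e2, ← e1]
    have : (E \ F).filter (fun e => v ∈ e.1) =
        E.filter (fun e => v ∈ e.1) \ F.filter (fun e => v ∈ e.1) := by
      ext e; simp only [mem_filter, mem_sdiff]; tauto
    rw [this, card_sdiff_add_card_eq_card (filter_subset_filter _ h.1)]
  · rfl

theorem res_symm {E E' F F' : Finset (Edge n)} (hd : Disjoint F F') (hne : E ≠ E')
    (h : switchResult E F F' = E') : switchResult E' F' F = E := by
  unfold switchResult at h ⊢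
  split_ifs at h with h1
  · subst h
    rw [if_pos ⟨subset_union_right, disjoint_union_right.2 ⟨disjoint_sdiff, hd⟩⟩]
    ext e
    have a1 := @h1.1 e
    have a2 := @disjoint_left.1 h1.2 e
    simp only [mem_union, mem_sdiff]
    tauto
  · exact absurd h hne

theorem sum_erase_comm {α : Type} [DecidableEq α] (A : Finset α) (φ : α → α → ℕ) :
    ∑ x ∈ A, ∑ y ∈ A.erase x, φ x y = ∑ x ∈ A, ∑ y ∈ A.erase x, φ y x := by
  apply sum_comm'
  intro x y
  simp only [mem_erase]
  tauto

theorem count_symm (E E' : Finset (Edge n)) : proposalCount E E' = proposalCount E' E := by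
  by_cases hne : E = E'
  · rw [hne]
  unfold proposalCount
  refine sum_congr rfl fun S hS => ?_
  rw [sum_erase_comm]
  refine sum_congr rfl fun F hF => sum_congr rfl fun F' hF' => ?_
  have hd := (pm_facts (mem_powersetCard.1 hS).2).2 F hF F' (mem_of_mem_erase hF')
    (ne_of_mem_erase hF')
  exact if_congr ⟨res_symm hd.symm hne, res_symm hd (Ne.symm hne)⟩ rfl rfl

theorem sum_count (E : Finset (Edge n)) (φ : Finset (Edge n) → ℝ) :
    ∑ E', (proposalCount E E' : ℝ) * φ E' = ∑ S ∈ (univ : Finset (Fin n)).powersetCard 4,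
      ∑ F ∈ pmSet S, ∑ F' ∈ (pmSet S).erase F, φ (switchResult E F F') := by
  simp only [proposalCount, Nat.cast_sum, sum_mul]
  rw [sum_comm]
  refine sum_congr rfl fun S _ => ?_
  rw [sum_comm]
  refine sum_congr rfl fun F _ => ?_
  rw [sum_comm]
  refine sum_congr rfl fun F' _ => ?_
  simp

theorem lazy (hn : 4 ≤ n) (d : Fin n → ℕ) : Lazy (kernel n) (realizations d) := by
  have hc : (0 : ℝ) < n.choose 4 := by exact_mod_cast Nat.choose_pos hn
  refine ⟨fun a b => ?_, fun a b => ?_, fun a => ?_, fun a ha b hb => ?_⟩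
  · simp only [kernel, count_symm a b, eq_comm]
  · simp only [kernel]
    have : (0 : ℝ) ≤ (proposalCount a b : ℝ) / (12 * (n.choose 4 : ℝ)) := by positivity
    linarith
  · simp only [kernel, sum_add_distrib, ← sum_div]
    have h1 := sum_count a (fun _ => 1)
    simp only [mul_one] at h1
    have h2 : ∀ S ∈ (univ : Finset (Fin n)).powersetCard 4,
        ∑ F ∈ pmSet S, ∑ F' ∈ (pmSet S).erase F, (1 : ℝ) = 6 := by
      intro S hS
      have h3 := (pm_facts (mem_powersetCard.1 hS).2).1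
      rw [sum_congr rfl (g := fun _ => (2 : ℝ))]
      · rw [sum_const, h3]; norm_num
      · intro F hF
        rw [sum_const, card_erase_of_mem hF, h3]; norm_num
    rw [h1, sum_congr rfl h2, sum_ite_eq, if_pos (mem_univ _), sum_const, card_powersetCard,
      card_univ, Fintype.card_fin, nsmul_eq_mul]
    field_simp; norm_num
  · have hne : a ≠ b := fun e => hb (e ▸ ha)
    have : proposalCount a b = 0 := by
      refine sum_eq_zero fun S _ => sum_eq_zero fun F hF => sum_eq_zero fun F' hF' => if_neg ?_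
      rintro rfl
      apply hb
      simp only [realizations, mem_filter, mem_univ, true_and] at ha ⊢
      intro v
      rw [res_deg hF (mem_of_mem_erase hF'), ha]
    simp [kernel, hne, this]

/-! ### Graphs and edge sets -/

open Classical in
noncomputable def ofG (G : SimpleGraph (Fin n)) : Finset (Edge n) :=
  univ.filter fun e => e.1 ∈ G.edgeSet

theorem mem_ofG {G : SimpleGraph (Fin n)} {e : Edge n} : e ∈ ofG G ↔ e.1 ∈ G.edgeSet := by
  simp [ofG]

theorem ofG_bij : Function.Bijective (ofG (n := n)) := by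
  constructor
  · intro G G' h
    ext a b
    by_cases hab : a = b
    · simp [hab]
    · have h1 : ed hab ∈ ofG G ↔ ed hab ∈ ofG G' := by rw [h]
      simpa [mem_ofG, ed] using h1
  · intro E
    refine ⟨SimpleGraph.fromEdgeSet (Subtype.val '' (E : Set (Edge n))), ?_⟩
    ext e
    rw [mem_ofG, SimpleGraph.edgeSet_fromEdgeSet]
    constructor
    · rintro ⟨⟨e', h1, h2⟩, -⟩
      rwa [← Subtype.ext h2]
    · intro h
      exact ⟨⟨e, h, rfl⟩, e.2⟩

theorem deg_ofG (G : SimpleGraph (Fin n)) (v : Fin n) : deg (ofG G) v = (nb G v).card := by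
  symm
  refine card_bij (fun b hb => ed (G.ne_of_adj (mem_nb.1 hb))) ?_ ?_ ?_
  · intro b hb
    simpa [mem_ofG, ed] using mem_nb.1 hb
  · intro b hb b' hb' h
    simpa [ed, Subtype.ext_iff, (G.ne_of_adj (mem_nb.1 hb'))] using h
  · intro e he
    obtain ⟨h1, h2⟩ := mem_filter.1 he
    obtain ⟨y, hy⟩ := Sym2.mem_iff_exists.1 h2
    rw [mem_ofG, hy] at h1
    exact ⟨y, mem_nb.2 h1, Subtype.ext hy.symm⟩

theorem sum_ofG (d : Fin n → ℕ) (φ : Finset (Edge n) → ℝ) :
    ∑ G ∈ Om d, φ (ofG G) = ∑ E ∈ realizations d, φ E := by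
  refine sum_bijective ofG ofG_bij (fun G => ?_) (fun _ _ => rfl)
  simp [mem_Om, realizations, deg_ofG]

theorem ofG_sw {u v k l : Fin n} (hD : Dis u v k l) {G : SimpleGraph (Fin n)}
    (a1 : G.Adj u k) (a2 : G.Adj v l) (a3 : ¬ G.Adj u l) (a4 : ¬ G.Adj v k) :
    ofG (sw u v k l G) = switchResult (ofG G) (mt u k v l) (mt u l v k) := by
  have hC : Cen u v k l G := by unfold Cen; tauto
  have h1 : mt u k v l ⊆ ofG G := by
    intro e he
    rw [mem_ofG]
    rcases mem_mt.1 he with h | h <;> rwa [h]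
  have h2 : Disjoint (mt u l v k) (ofG G) := by
    rw [disjoint_left]
    intro e he
    rw [mem_ofG]
    rcases mem_mt.1 he with h | h <;> rwa [h]
  rw [switchResult, if_pos ⟨h1, h2⟩]
  ext ⟨e, he⟩
  induction e using Sym2.ind with
  | _ a b =>
    simp only [mem_ofG, mem_union, mem_sdiff, mem_mt, SimpleGraph.mem_edgeSet]
    by_cases hb : Blk u v k l a b
    · rw [sw_adj_of hD hC hb]
      have a1' := a1.symm
      have a2' := a2.symm
      have a3' : ¬ G.Adj l u := fun h => a3 h.symm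
      have a4' : ¬ G.Adj k v := fun h => a4 h.symm
      clear h1 h2
      obtain ⟨h1, h2, h3, h4, h5, h6⟩ := hD
      have h1' := h1.symm
      have h2' := h2.symm
      have h3' := h3.symm
      have h4' := h4.symm
      have h5' := h5.symm
      have h6' := h6.symm
      rcases hb with ⟨rfl | rfl, rfl | rfl⟩ | ⟨rfl | rfl, rfl | rfl⟩ <;> simp [*]
    · rw [sw_adj_of_not _ hb]
      simp only [Blk] at hb
      simp only [Sym2.eq_iff]
      tauto

theorem sw_comm (u v k l : Fin n) (G : SimpleGraph (Fin n)) : sw u v k l G = sw u v l k G := by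
  have h1 : Cen u v k l G ↔ Cen u v l k G := by unfold Cen; tauto
  ext a b
  have h2 : Blk u v k l a b ↔ Blk u v l k a b := by
    unfold Blk; rw [or_comm (a := b = k), or_comm (a := a = k)]
  simp only [sw, h1, h2]

theorem term_le {u v k l : Fin n} (hD : Dis u v k l) (G : SimpleGraph (Fin n))
    (f : Finset (Edge n) → ℝ) :
    (f (ofG G) - f (ofG (sw u v k l G))) ^ 2 ≤
      (f (ofG G) - f (switchResult (ofG G) (mt u k v l) (mt u l v k))) ^ 2 +
      (f (ofG G) - f (switchResult (ofG G) (mt u l v k) (mt u k v l))) ^ 2 := by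
  by_cases hC : Cen u v k l G
  · unfold Cen at hC
    by_cases h : G.Adj u k
    · rw [ofG_sw hD h (by tauto) (by tauto) (by tauto)]
      exact le_add_of_nonneg_right (sq_nonneg _)
    · obtain ⟨h1, h2, h3, h4, h5, h6⟩ := hD
      rw [sw_comm, ofG_sw ⟨h1, h3, h2, h5, h4, h6.symm⟩ (by tauto) (by tauto) h (by tauto)]
      exact le_add_of_nonneg_left (sq_nonneg _)
  · rw [sw_of_not hC, sub_self]
    simp only [ne_eq, OfNat.ofNat_ne_zero, not_false_eq_true, zero_pow]
    positivity

/-- the contribution of a four-element set to the Dirichlet form -/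
noncomputable def DS (d : Fin n → ℕ) (f : Finset (Edge n) → ℝ) (S : Finset (Fin n)) : ℝ :=
  ∑ F ∈ pmSet S, ∑ F' ∈ (pmSet S).erase F, ∑ E ∈ realizations d,
    (f E - f (switchResult E F F')) ^ 2

theorem DS_nonneg (d : Fin n → ℕ) (f : Finset (Edge n) → ℝ) (S : Finset (Fin n)) :
    0 ≤ DS d f S :=
  sum_nonneg fun _ _ => sum_nonneg fun _ _ => sum_nonneg fun _ _ => sq_nonneg _

theorem quad_le (d : Fin n → ℕ) (f : Finset (Edge n) → ℝ) {u v k l : Fin n} (hD : Dis u v k l) :
    ∑ G ∈ Om d, (f (ofG G) - f (ofG (sw u v k l G))) ^ 2 ≤ DS d f {u, v, k, l} := by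
  refine (sum_le_sum fun G _ => term_le hD G f).trans ?_
  rw [sum_ofG d (fun E => (f E - f (switchResult E (mt u k v l) (mt u l v k))) ^ 2 +
      (f E - f (switchResult E (mt u l v k) (mt u k v l))) ^ 2), sum_add_distrib]
  have m1 : mt u k v l ∈ pmSet {u, v, k, l} := by rw [pm_eq hD]; simp
  have m2 : mt u l v k ∈ pmSet {u, v, k, l} := by rw [pm_eq hD]; simp
  obtain ⟨h1, h2, h3, h4, h5, h6⟩ := hD
  have hne : mt u k v l ≠ mt u l v k := by
    rw [mt_swap, mt_swap u l]; exact mt_ne ⟨h2, h3, h1, h6, h4.symm, h5.symm⟩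
  have p : ∀ F F' : Finset (Edge n), 0 ≤ ∑ E ∈ realizations d,
    (f E - f (switchResult E F F')) ^ 2 := fun _ _ => sum_nonneg fun _ _ => sq_nonneg _
  refine le_trans (add_le_add ?_ ?_) (add_le_sum (fun F _ => sum_nonneg fun F' _ => p F F') m1 m2 hne)
  · exact single_le_sum (f := fun F' => ∑ E ∈ realizations d,
      (f E - f (switchResult E (mt u k v l) F')) ^ 2) (fun F' _ => p _ F')
      (mem_erase.2 ⟨hne.symm, m2⟩)
  · exact single_le_sum (f := fun F' => ∑ E ∈ realizations d,
      (f E - f (switchResult E (mt u l v k) F')) ^ 2) (fun F' _ => p _ F')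
      (mem_erase.2 ⟨hne, m1⟩)

theorem dir_le (d : Fin n → ℕ) (f : Finset (Edge n) → ℝ) :
    Dir d (fun G => f (ofG G)) ≤ 256 * ∑ S ∈ (univ : Finset (Fin n)).powersetCard 4, DS d f S := by
  have h1 : ∀ u v k l : Fin n, (if Dis u v k l then
      ∑ G ∈ Om d, (f (ofG G) - f (ofG (sw u v k l G))) ^ 2 else 0) ≤
      ∑ S ∈ (univ : Finset (Fin n)).powersetCard 4, (if u ∈ S then 1 else 0) *
        ((if v ∈ S then 1 else 0) * ((if k ∈ S then 1 else 0) * ((if l ∈ S then 1 else 0) *
          DS d f S))) := by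
    intro u v k l
    have p : ∀ S ∈ (univ : Finset (Fin n)).powersetCard 4, (0 : ℝ) ≤ (if u ∈ S then 1 else 0) *
        ((if v ∈ S then 1 else 0) * ((if k ∈ S then 1 else 0) * ((if l ∈ S then 1 else 0) *
          DS d f S))) := by
      intro S _
      have := DS_nonneg d f S
      positivity
    split_ifs with hD
    · refine (quad_le d f hD).trans (le_trans (le_of_eq ?_) (single_le_sum p
        (mem_powersetCard.2 ⟨subset_univ _, card_four hD⟩)))
      simp
    · exact sum_nonneg p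
  refine (sum_le_sum fun u _ => sum_le_sum fun v _ => sum_le_sum fun k _ =>
    sum_le_sum fun l _ => h1 u v k l).trans (le_of_eq ?_)
  simp_rw [sum_comm (s := univ) (t := (univ : Finset (Fin n)).powersetCard 4)]
  rw [mul_sum]
  refine sum_congr rfl fun S hS => ?_
  have h4 : ∑ u : Fin n, (if u ∈ S then (1 : ℝ) else 0) = 4 := by
    simp [(mem_powersetCard.1 hS).2]
  simp_rw [← mul_sum, ← sum_mul, h4]
  ring

theorem poincare (hP : PStmt) (hn : 4 ≤ n) (d : Fin n → ℕ) (f : Finset (Edge n) → ℝ) :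
    ((realizations d).card : ℝ) * (∑ G ∈ realizations d, f G ^ 2) -
        (∑ G ∈ realizations d, f G) ^ 2 ≤
      24 * (n : ℝ) ^ 2 * (n.choose 4 : ℝ) * (realizations d).card *
        ∑ G ∈ realizations d, f G * (f G - ∑ G' ∈ realizations d, kernel n G G' * f G') := by
  have hc : (0 : ℝ) < n.choose 4 := by exact_mod_cast Nat.choose_pos hn
  have h1 := hP (Fin n) d (fun G => f (ofG G))
  have h2 : ((Om d).card : ℝ) = (realizations d).card := by
    simpa using sum_ofG d (fun _ => 1)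
  rw [h2, sum_ofG d (fun E => f E ^ 2), sum_ofG d f] at h1
  have h3 := (lazy hn d).dirichlet f
  have h4 : ∑ a ∈ realizations d, ∑ b ∈ realizations d, kernel n a b * (f a - f b) ^ 2 =
      (∑ S ∈ (univ : Finset (Fin n)).powersetCard 4, DS d f S) / (12 * (n.choose 4 : ℝ)) := by
    have : ∀ a ∈ realizations d, ∑ b ∈ realizations d, kernel n a b * (f a - f b) ^ 2 =
        (∑ S ∈ (univ : Finset (Fin n)).powersetCard 4, ∑ F ∈ pmSet S, ∑ F' ∈ (pmSet S).erase F,
          (f a - f (switchResult a F F')) ^ 2) / (12 * (n.choose 4 : ℝ)) := by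
      intro a ha
      rw [(lazy hn d).sum_eq ha, ← sum_count a (fun b => (f a - f b) ^ 2), sum_div]
      refine sum_congr rfl fun b _ => ?_
      rw [kernel]
      split_ifs with h
      · rw [h, sub_self]; ring
      · ring
    rw [sum_congr rfl this, ← sum_div, sum_comm]
    refine congrArg (· / (12 * (n.choose 4 : ℝ))) (sum_congr rfl fun S _ => ?_)
    rw [DS, sum_comm]
    exact sum_congr rfl fun F _ => sum_comm
  have h5 := dir_le d f
  have h6 : 0 ≤ ∑ S ∈ (univ : Finset (Fin n)).powersetCard 4, DS d f S :=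
    sum_nonneg fun S _ => DS_nonneg d f S
  set D := ∑ S ∈ (univ : Finset (Fin n)).powersetCard 4, DS d f S
  have h7 : ∑ G ∈ realizations d, f G * (f G - ∑ G' ∈ realizations d, kernel n G G' * f G') =
      D / (24 * (n.choose 4 : ℝ)) := by
    rw [h4] at h3
    field_simp at h3 ⊢
    linarith
  have h8 : (16 : ℝ) ≤ (n : ℝ) ^ 2 := by
    have : (4 : ℝ) ≤ n := by exact_mod_cast hn
    nlinarith
  have h9 : (0 : ℝ) ≤ (realizations d).card := Nat.cast_nonneg _
  rw [h7]
  have : 24 * (n : ℝ) ^ 2 * (n.choose 4 : ℝ) * (realizations d).card * (D / (24 * (n.choose 4 : ℝ))) =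
      (n : ℝ) ^ 2 * ((realizations d).card * D) := by field_simp
  rw [this]
  have h10 := mul_le_mul_of_nonneg_left h5 h9
  have h11 := mul_le_mul_of_nonneg_right h8 (mul_nonneg h9 h6)
  nlinarith

theorem card_real_le (d : Fin n → ℕ) : ((realizations d).card : ℝ) ≤ Real.exp ((n : ℝ) ^ 2) := by
  have h1 : (realizations d).card ≤ 2 ^ (n ^ 2) := by
    refine (card_le_univ _).trans ?_
    rw [Fintype.card_finset]
    refine Nat.pow_le_pow_right (by norm_num) ((Fintype.card_subtype_le _).trans ?_)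
    have := Fintype.card_le_of_surjective (Sym2.mk (α := Fin n)).uncurry
      (fun e => Sym2.ind (fun a b => ⟨(a, b), rfl⟩) e)
    simpa [sq] using this
  have h2 : (2 : ℝ) ≤ Real.exp 1 := by have := Real.add_one_le_exp (1 : ℝ); linarith
  calc ((realizations d).card : ℝ) ≤ 2 ^ (n ^ 2) := by exact_mod_cast h1
    _ ≤ (Real.exp 1) ^ (n ^ 2) := pow_le_pow_left₀ (by norm_num) h2 _
    _ = _ := by rw [← Real.exp_nat_mul]; simp

end FA

open FA in
theorem final (hP : PStmt) : FinalStmt := by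
  intro n hn d _
  refine ⟨⟨2 * n ^ 8, le_rfl, fun G hG => ?_⟩, poincare hP hn d⟩
  have h4 : (4 : ℝ) ≤ n := by exact_mod_cast hn
  have hc : 24 * (n.choose 4 : ℝ) ≤ (n : ℝ) ^ 4 := by
    have := Nat.choose_le_pow_div (α := ℝ) 4 n
    rw [le_div_iff₀ (by positivity)] at this
    simp only [Nat.factorial] at this
    push_cast at this
    linarith
  have h6 : (1 : ℝ) ≤ (n : ℝ) ^ 6 := one_le_pow₀ (by linarith)
  have hm := (lazy hn d).mix h6 (fun f => (poincare hP hn d f).trans (by
    have h3 := (lazy hn d).dirichlet f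
    have h5 : 0 ≤ ∑ a ∈ realizations d, ∑ b ∈ realizations d, kernel n a b * (f a - f b) ^ 2 := by
      refine sum_nonneg fun a _ => sum_nonneg fun b _ => mul_nonneg ?_ (sq_nonneg _)
      refine le_trans ?_ ((lazy hn d).lazy a b)
      split_ifs <;> norm_num
    refine mul_le_mul_of_nonneg_right (mul_le_mul_of_nonneg_right ?_ (Nat.cast_nonneg _))
      (by linarith)
    nlinarith [mul_le_mul_of_nonneg_left hc (sq_nonneg (n : ℝ))])) hG (2 * n ^ 8)
  have h7 : (1 - 1 / (n : ℝ) ^ 6) ^ (2 * n ^ 8) ≤ Real.exp (-(2 * (n : ℝ) ^ 2)) := by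
    have h0 : 0 ≤ 1 - 1 / (n : ℝ) ^ 6 := by
      rw [sub_nonneg, div_le_one (by linarith)]; exact h6
    calc _ ≤ (Real.exp (-(1 / (n : ℝ) ^ 6))) ^ (2 * n ^ 8) :=
          pow_le_pow_left₀ h0 (Real.one_sub_le_exp_neg _) _
      _ = _ := by
          rw [← Real.exp_nat_mul]; congr 1; push_cast; field_simp
  have h8 : ((realizations d).card : ℝ) * (1 - 1 / (n : ℝ) ^ 6) ^ (2 * n ^ 8) ≤ 1 / 4 := by
    have h0 : 0 ≤ 1 - 1 / (n : ℝ) ^ 6 := by
      rw [sub_nonneg, div_le_one (by linarith)]; exact h6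
    refine (mul_le_mul (card_real_le d) h7 (pow_nonneg h0 _) (Real.exp_nonneg _)).trans ?_
    rw [← Real.exp_add, show (n : ℝ) ^ 2 + -(2 * (n : ℝ) ^ 2) = -((n : ℝ) ^ 2) by ring,
      Real.exp_neg, one_div]
    apply inv_anti₀ (by norm_num)
    have := Real.add_one_le_exp ((n : ℝ) ^ 2)
    nlinarith
  unfold tvDist
  have h9 := hm.trans h8
  rw [div_le_iff₀ (by norm_num)]
  exact le_of_sq_le_sq (by linarith) (by norm_num)

end Crest.Agent.Sw
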