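import Crest.Agent.Sw.Defs

/-! Row 299, sub-task J: inequalities in the Johnson scheme. -/

set_option autoImplicit false
set_option linter.unusedSectionVars false
open Finset

namespace Crest.Agent.Sw

namespace J

variable {V : Type} [Fintype V] [DecidableEq V]

/-- indicator -/
def x (c : V) (S : Finset V) : ℝ := if c ∈ S then 1 else 0

lemma x_sq (c : V) (S : Finset V) : x c S * x c S = x c S := by
  unfold x; split_ifs <;> simp

lemma sum_x {A S : Finset V} {k : ℕ} (h : S ∈ powersetCard k A) : ∑ c ∈ A, x c S = k := by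
  obtain ⟨h1, h2⟩ := mem_powersetCard.1 h
  simp only [x, sum_boole, filter_mem_eq_inter, inter_eq_right.2 h1, h2]

lemma sym {ι : Type} [Finite ι] (A : Finset V) (k : ℕ) (f g : ι → V) (hf : Function.Injective f)
    (hg : Function.Injective g) (hfA : ∀ i, f i ∈ A) (hgA : ∀ i, g i ∈ A) (G : (ι → ℝ) → ℝ) :
    ∑ S ∈ powersetCard k A, G (fun i => x (f i) S) =
      ∑ S ∈ powersetCard k A, G (fun i => x (g i) S) := by
  obtain ⟨σ', hσ'⟩ := Equiv.Perm.exists_extending_pair (fun i => (⟨f i, hfA i⟩ : A))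
    (fun i => ⟨g i, hgA i⟩) (fun i j h => hf (congrArg Subtype.val h))
    fun i j h => hg (congrArg Subtype.val h)
  set σ := Equiv.Perm.ofSubtype σ' with hσ
  have h1 : ∀ i, σ (f i) = g i := fun i => by
    rw [hσ, Equiv.Perm.ofSubtype_apply_of_mem σ' (hfA i), hσ']
  have h2 : ∀ a, σ a ∈ A ↔ a ∈ A := fun a => Equiv.Perm.ofSubtype_apply_mem_iff_mem σ' a
  refine sum_equiv σ.finsetCongr (fun S => ?_) fun S _ => ?_
  · simp only [mem_powersetCard, Equiv.finsetCongr_apply, card_map, subset_iff, forall_mem_map,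
      Equiv.coe_toEmbedding, h2]
  · congr 1
    funext i
    simp only [x, Equiv.finsetCongr_apply, ← h1, mem_map_equiv, Equiv.symm_apply_apply]

lemma cs {α : Type*} (s : Finset α) (φ T : α → ℝ) {Q lam : ℝ} (h0 : 0 ≤ Q) (hl : 0 ≤ lam)
    (h1 : Q = ∑ S ∈ s, φ S * T S) (h2 : ∑ S ∈ s, T S ^ 2 ≤ lam * Q) :
    Q ≤ lam * ∑ S ∈ s, φ S ^ 2 := by
  have h3 := sum_mul_sq_le_sq_mul_sq s φ T
  have h4 : 0 ≤ ∑ S ∈ s, φ S ^ 2 := sum_nonneg fun _ _ => sq_nonneg _
  rw [← h1] at h3
  rcases h0.eq_or_lt with h | h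
  · rw [← h]; positivity
  · refine le_of_mul_le_mul_left ?_ h
    nlinarith [mul_le_mul_of_nonneg_left h2 h4]

lemma n1_eq (A : Finset V) (k : ℕ) {c : V} (hc : c ∈ A) :
    #A * ∑ S ∈ powersetCard k A, x c S = k * #(powersetCard k A) := by
  have : ∀ d ∈ A, ∑ S ∈ powersetCard k A, x c S = ∑ S ∈ powersetCard k A, x d S := fun d hd =>
    sym A k (fun _ : Unit => c) (fun _ => d) (fun _ _ _ => rfl) (fun _ _ _ => rfl) (fun _ => hc)
      (fun _ => hd) fun z => z ()
  rw [← nsmul_eq_mul, ← sum_const, sum_congr rfl this, sum_comm, sum_congr rfl fun S => sum_x]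
  simp [mul_comm]

lemma n2_eq (A : Finset V) (k : ℕ) {c d : V} (hc : c ∈ A) (hd : d ∈ A) (h : d ≠ c) :
    ((#A : ℝ) - 1) * ∑ S ∈ powersetCard k A, x c S * x d S =
      ((k : ℝ) - 1) * ∑ S ∈ powersetCard k A, x c S := by
  have inj : ∀ {e : V}, e ≠ c → Function.Injective ![c, e] := fun h i j => by
    fin_cases i <;> fin_cases j <;> simp [h, h.symm]
  have : ∀ e ∈ A.erase c, ∑ S ∈ powersetCard k A, x c S * x d S =
      ∑ S ∈ powersetCard k A, x c S * x e S := fun e he =>
    sym A k ![c, d] ![c, e] (inj h) (inj (mem_erase.1 he).1) (fun i => by fin_cases i <;> simpa)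
      (fun i => by fin_cases i <;> simp [hc, (mem_erase.1 he).2]) fun z => z 0 * z 1
  rw [← cast_card_erase_of_mem hc, ← nsmul_eq_mul, ← sum_const, sum_congr rfl this, sum_comm,
    mul_sum]
  refine sum_congr rfl fun S hS => ?_
  rw [← mul_sum, sum_erase_eq_sub hc, sum_x hS, mul_sub, x_sq]
  ring

lemma bessel (A : Finset V) (k : ℕ) (φ : Finset V → ℝ) (h : ∑ S ∈ powersetCard k A, φ S = 0)
    (hN : 2 ≤ #A) (hk : k ≤ #A) {n1 : ℝ} (h1 : ∀ c ∈ A, ∑ S ∈ powersetCard k A, x c S = n1)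
    (h0 : 0 ≤ n1) : ∑ c ∈ A, (∑ S ∈ powersetCard k A, φ S * x c S) ^ 2 ≤
      ((#A : ℝ) - k) * n1 / (#A - 1) * ∑ S ∈ powersetCard k A, φ S ^ 2 := by
  have hN' : (0 : ℝ) < #A - 1 := by
    have : (2 : ℝ) ≤ #A := by exact_mod_cast hN
    linarith
  have hk' : (0 : ℝ) ≤ #A - k := sub_nonneg.2 (by exact_mod_cast hk)
  set y : V → ℝ := fun c => ∑ S ∈ powersetCard k A, φ S * x c S with hy
  have hy0 : ∑ c ∈ A, y c = 0 := by
    rw [sum_comm, sum_congr rfl fun S hS => by rw [← mul_sum, sum_x hS], ← sum_mul, h, zero_mul]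
  refine cs _ φ (fun S => ∑ c ∈ A, y c * x c S) (sum_nonneg fun _ _ => sq_nonneg _)
    (by positivity) ?_ (le_of_eq ?_)
  · simp only [mul_sum]
    rw [sum_comm]
    refine sum_congr rfl fun c _ => ?_
    rw [sq, mul_sum]
    exact sum_congr rfl fun S _ => by ring
  · rw [div_mul_eq_mul_div, eq_div_iff hN'.ne']
    have e : ∀ c ∈ A, ∀ d ∈ A, (∑ S ∈ powersetCard k A, y c * x c S * (y d * x d S)) * (#A - 1) =
        y c * y d * ((k - 1) * n1) + if d = c then (#A - k) * n1 * y c ^ 2 else 0 := by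
      intro c hc d hd
      have : ∑ S ∈ powersetCard k A, y c * x c S * (y d * x d S) =
          y c * y d * ∑ S ∈ powersetCard k A, x c S * x d S := by
        rw [mul_sum]; exact sum_congr rfl fun S _ => by ring
      rw [this]
      split_ifs with hcd
      · simp only [hcd, x_sq, h1 c hc]; ring
      · linear_combination y c * y d * (n2_eq A k hc hd hcd) + y c * y d * (k - 1) * h1 c hc
    simp only [sq (∑ c ∈ A, y c * x c _), sum_mul_sum]
    rw [sum_comm, sum_mul, sum_congr rfl fun c hc => by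
      rw [sum_comm, sum_mul, sum_congr rfl (e c hc), sum_add_distrib, sum_ite_eq', if_pos hc,
        ← sum_mul, ← mul_sum, hy0, mul_zero, zero_mul, zero_add], ← mul_sum]

lemma split {A : Finset V} {c : V} (hc : c ∈ A) (k : ℕ) (g : Finset V → ℝ) :
    ∑ S ∈ powersetCard (k + 1) A, g S = ∑ S ∈ powersetCard (k + 1) (A.erase c), g S +
      ∑ S ∈ powersetCard k (A.erase c), g (insert c S) := by
  have hn : ∀ {j : ℕ}, ∀ S ∈ powersetCard j (A.erase c), c ∉ S := fun S hS h =>
    notMem_erase c A ((mem_powersetCard.1 hS).1 h)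
  conv_lhs => rw [← insert_erase hc, powersetCard_succ_insert (notMem_erase c A)]
  rw [sum_union, sum_image]
  · intro S hS T hT h
    rw [← erase_insert (hn S hS), h, erase_insert (hn T hT)]
  · refine disjoint_left.2 fun S hS h => ?_
    obtain ⟨T, -, rfl⟩ := mem_image.1 h
    exact hn _ hS (mem_insert_self _ _)

/-- Dirichlet form -/
noncomputable def D (A : Finset V) (k : ℕ) (φ : Finset V → ℝ) : ℝ :=
  ∑ a ∈ A, ∑ b ∈ A, ∑ S ∈ powersetCard k A, (φ S - φ (S.image (Equiv.swap a b))) ^ 2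

lemma D_nonneg (A : Finset V) (k : ℕ) (φ : Finset V → ℝ) : 0 ≤ D A k φ :=
  sum_nonneg fun _ _ => sum_nonneg fun _ _ => sum_nonneg fun _ _ => sq_nonneg _

lemma of_mean {A : Finset V} {k : ℕ} {c : ℝ}
    (h : ∀ φ, ∑ S ∈ powersetCard k A, φ S = 0 → c * ∑ S ∈ powersetCard k A, φ S ^ 2 ≤ D A k φ)
    (φ : Finset V → ℝ) : c * (∑ S ∈ powersetCard k A, φ S ^ 2 -
      (∑ S ∈ powersetCard k A, φ S) ^ 2 / #(powersetCard k A)) ≤ D A k φ := by
  rcases (powersetCard k A).eq_empty_or_nonempty with h0 | h0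
  · simpa [h0] using D_nonneg A k φ
  have hn : (#(powersetCard k A) : ℝ) ≠ 0 := by exact_mod_cast h0.card_pos.ne'
  have := h (fun S => φ S - (∑ S ∈ powersetCard k A, φ S) / #(powersetCard k A)) (by
    rw [sum_sub_distrib, sum_const, nsmul_eq_mul, mul_div_cancel₀ _ hn, sub_self])
  simp only [D, sub_sub_sub_cancel_right] at this
  refine le_trans (le_of_eq ?_) this
  simp only [sub_sq, sum_add_distrib, sum_sub_distrib, ← sum_mul, ← mul_sum, sum_const,
    nsmul_eq_mul]
  field_simp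
  ring

lemma small {A : Finset V} {k : ℕ} (h : #(powersetCard k A) ≤ 1) (φ : Finset V → ℝ)
    (h0 : ∑ S ∈ powersetCard k A, φ S = 0) : ∑ S ∈ powersetCard k A, φ S ^ 2 = 0 := by
  obtain ⟨T, hT⟩ := card_le_one_iff_subset_singleton.1 h
  rcases subset_singleton_iff.1 hT with h | h
  · rw [h, sum_empty]
  · rw [h, sum_singleton] at h0 ⊢
    simp [h0]

lemma gap (N : ℕ) : ∀ (A : Finset V), #A = N → ∀ (k : ℕ) (φ : Finset V → ℝ),
    ∑ S ∈ powersetCard k A, φ S = 0 → 4 * N * ∑ S ∈ powersetCard k A, φ S ^ 2 ≤ D A k φ := by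
  induction N with
  | zero => intro A _ k φ _; simpa using D_nonneg A k φ
  | succ N ih =>
    intro A hA k φ h0
    by_cases hs : #(powersetCard k A) ≤ 1
    · rw [small hs φ h0, mul_zero]; exact D_nonneg A k φ
    rw [card_powersetCard, hA] at hs
    obtain ⟨k, rfl⟩ : ∃ j, k = j + 1 := by
      cases k with
      | zero => simp at hs
      | succ j => exact ⟨j, rfl⟩
    have hk : k < N := by
      by_contra hc
      rcases (not_lt.1 hc).eq_or_lt with h | h
      · simp [h] at hs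
      · simp [Nat.choose_eq_zero_of_lt (Nat.succ_lt_succ h)] at hs
    by_cases h2 : N = 1
    · obtain rfl : k = 0 := by omega
      obtain ⟨a, b, hab, rfl⟩ := card_eq_two.1 (h2 ▸ hA)
      simp only [D, zero_add, powersetCard_one, sum_map, sum_pair hab, Function.Embedding.coeFn_mk,
        image_singleton, Equiv.swap_apply_left, Equiv.swap_apply_right, Equiv.swap_self,
        Equiv.refl_apply, h2] at h0 ⊢
      rw [eq_neg_of_add_eq_zero_left h0]
      push_cast
      nlinarith
    have hN2 : (2 : ℝ) ≤ N := by exact_mod_cast (by omega : 2 ≤ N)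
    have hkN : (k : ℝ) + 1 ≤ N := by exact_mod_cast hk
    have hA' : (#A : ℝ) = N + 1 := by rw [hA]; push_cast; rfl
    set n : ℝ := (#(powersetCard (k + 1) A) : ℝ) with hn
    have hn0 : 0 < n := by
      rw [hn, card_powersetCard, hA]; exact_mod_cast (by omega)
    set n1 : ℝ := (k + 1) * n / (N + 1) with hn1
    have h1 : ∀ c ∈ A, ∑ S ∈ powersetCard (k + 1) A, x c S = n1 := fun c hc => by
      have := n1_eq A (k + 1) hc
      rw [hA'] at this
      rw [hn1, eq_div_iff (by positivity), mul_comm, this]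
      push_cast; rfl
    have hb := bessel A (k + 1) φ h0 (by omega) (by omega) h1 (by positivity)
    have key : ∀ c ∈ A, 4 * N * (∑ S ∈ powersetCard (k + 1) A, φ S ^ 2 -
        (∑ S ∈ powersetCard (k + 1) A, φ S * x c S) ^ 2 * ((N + 1) / ((N - k) * n1))) ≤
        ∑ a ∈ A.erase c, ∑ b ∈ A.erase c, ∑ S ∈ powersetCard (k + 1) A,
          (φ S - φ (S.image (Equiv.swap a b))) ^ 2 := fun c hc => by
      have hc' : #(A.erase c) = N := by rw [card_erase_of_mem hc, hA]; rfl
      have x0 : ∀ S ∈ powersetCard (k + 1) (A.erase c), x c S = 0 := fun S hS =>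
        if_neg fun h => notMem_erase c A ((mem_powersetCard.1 hS).1 h)
      have x1 : ∀ S, x c (insert c S) = 1 := fun S => if_pos (mem_insert_self _ _)
      have a0 := of_mean (ih _ hc' (k + 1)) φ
      have a1 := of_mean (ih _ hc' k) fun S => φ (insert c S)
      have e1 : (#(powersetCard k (A.erase c)) : ℝ) = n1 := by
        rw [← h1 c hc, split hc, sum_eq_zero x0]; simp [x1]
      have e0 : (#(powersetCard (k + 1) (A.erase c)) : ℝ) = n - n1 := by
        have := split hc k fun _ => 1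
        simp only [sum_const, nsmul_eq_mul, mul_one] at this
        linarith
      have e2 : ∑ S ∈ powersetCard k (A.erase c), φ (insert c S) =
          ∑ S ∈ powersetCard (k + 1) A, φ S * x c S := by
        rw [split hc, sum_eq_zero (s := powersetCard (k + 1) (A.erase c)) fun S hS => by
          rw [x0 S hS, mul_zero]]
        simp [x1]
      have e3 : ∑ S ∈ powersetCard (k + 1) (A.erase c), φ S =
          -∑ S ∈ powersetCard (k + 1) A, φ S * x c S := by
        rw [split hc] at h0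
        linarith
      have e4 : ∑ a ∈ A.erase c, ∑ b ∈ A.erase c, ∑ S ∈ powersetCard (k + 1) A,
          (φ S - φ (S.image (Equiv.swap a b))) ^ 2 =
          D (A.erase c) (k + 1) φ + D (A.erase c) k fun S => φ (insert c S) := by
        simp only [D, ← sum_add_distrib]
        refine sum_congr rfl fun a ha => sum_congr rfl fun b hb => ?_
        rw [split hc]
        simp only [image_insert, Equiv.swap_apply_of_ne_of_ne (mem_erase.1 ha).1.symm
          (mem_erase.1 hb).1.symm]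
      rw [e0, e3] at a0
      rw [e1, e2] at a1
      rw [e4, split hc k fun S => φ S ^ 2]
      refine le_trans (le_of_eq ?_) (add_le_add a0 a1)
      have e5 : n - n1 = (N - k) * n / (N + 1) := by rw [hn1]; field_simp; ring
      have : (0 : ℝ) < N - k := by linarith
      rw [e5, hn1]
      field_simp
      ring
    have tot : ∑ c ∈ A, ∑ a ∈ A.erase c, ∑ b ∈ A.erase c, ∑ S ∈ powersetCard (k + 1) A,
        (φ S - φ (S.image (Equiv.swap a b))) ^ 2 = (N - 1) * D A (k + 1) φ := by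
      have e : ∀ c ∈ A, ∑ a ∈ A.erase c, ∑ b ∈ A.erase c, ∑ S ∈ powersetCard (k + 1) A,
          (φ S - φ (S.image (Equiv.swap a b))) ^ 2 = ∑ a ∈ A, ∑ b ∈ A,
          if c ∈ (A.erase a).erase b then ∑ S ∈ powersetCard (k + 1) A,
            (φ S - φ (S.image (Equiv.swap a b))) ^ 2 else 0 := fun c hc => by
        rw [← filter_ne' A c, sum_filter]
        refine sum_congr rfl fun a _ => ?_
        rw [sum_filter]
        split_ifs with h
        · exact sum_congr rfl fun b _ => by simp [hc, h.symm, eq_comm]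
        · exact (sum_eq_zero fun b _ => by simp [not_not.1 h]).symm
      rw [sum_congr rfl e, sum_comm, D, mul_sum]
      refine sum_congr rfl fun a ha => ?_
      rw [sum_comm, mul_sum]
      refine sum_congr rfl fun b hb => ?_
      rw [sum_ite_mem, inter_eq_right.2 ((erase_subset _ _).trans (erase_subset _ _)), sum_const,
        nsmul_eq_mul]
      by_cases hab : b = a
      · simp [hab]
      · rw [cast_card_erase_of_mem (mem_erase.2 ⟨hab, hb⟩), cast_card_erase_of_mem ha, hA']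
        ring
    have fin := sum_le_sum key
    rw [tot, ← mul_sum, sum_sub_distrib, ← sum_mul, sum_const, nsmul_eq_mul, hA'] at fin
    have hp : (0 : ℝ) < N - k := by linarith
    have hn1p : 0 < n1 := by positivity
    have hb' := mul_le_mul_of_nonneg_right hb (show 0 ≤ (N + 1) / ((N - k) * n1) by positivity)
    have e6 : ((#A : ℝ) - (k + 1 : ℕ)) * n1 / (#A - 1) * (∑ S ∈ powersetCard (k + 1) A, φ S ^ 2) *
        ((N + 1) / ((N - k) * n1)) = (N + 1) / N * ∑ S ∈ powersetCard (k + 1) A, φ S ^ 2 := by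
      rw [hA']
      push_cast
      rw [add_sub_add_right_eq_sub, add_sub_cancel_right]
      field_simp
    rw [e6] at hb'
    refine le_of_mul_le_mul_left (le_trans ?_ fin) (show (0 : ℝ) < N - 1 by linarith)
    have := mul_le_mul_of_nonneg_left hb' (show (0 : ℝ) ≤ 4 * N by positivity)
    have e7 : 4 * N * ((N + 1) / N * ∑ S ∈ powersetCard (k + 1) A, φ S ^ 2) =
        4 * (N + 1) * ∑ S ∈ powersetCard (k + 1) A, φ S ^ 2 := by field_simp
    rw [e7] at this
    push_cast
    nlinarith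

/-- indicator of the centre -/
def u (a b : V) (S : Finset V) : ℝ := (x a S - x b S) ^ 2

lemma u_eq (a b : V) (S : Finset V) : u a b S = if ¬ (a ∈ S ↔ b ∈ S) then 1 else 0 := by
  unfold u x
  by_cases h1 : a ∈ S <;> by_cases h2 : b ∈ S <;> simp [h1, h2]

lemma u_comm (a b : V) (S : Finset V) : u a b S = u b a S := by unfold u; ring

lemma u_tri (a b c : V) (S : Finset V) :
    u a b S * u a c S = (u a b S + u a c S - u b c S) / 2 := by
  unfold u x
  split_ifs <;> norm_num

lemma u_mem (a b : V) (S : Finset V) : 0 ≤ u a b S ∧ u a b S ≤ 1 := by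
  rw [u_eq]; split_ifs <;> norm_num

lemma quad (A : Finset V) (t : V → V → ℝ) (hs : ∀ a b, t a b = t b a)
    (h0 : ∑ a ∈ A, ∑ b ∈ A, t a b = 0) :
    2 * ∑ a ∈ A, (∑ b ∈ A, t a b) ^ 2 ≤ #A * ∑ a ∈ A, ∑ b ∈ A, t a b ^ 2 := by
  set r : V → ℝ := fun a => ∑ b ∈ A, t a b with hr
  have h1 : 2 * ∑ a ∈ A, r a ^ 2 = ∑ z ∈ A ×ˢ A, t z.1 z.2 * (r z.1 + r z.2) := by
    simp only [sum_product, mul_add, sum_add_distrib]
    rw [sum_comm (f := fun a b => t a b * r b)]
    simp only [← sum_mul, hs _ (_ : V), two_mul, sq]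
    congr 1
  have h2 : ∑ z ∈ A ×ˢ A, (r z.1 + r z.2) ^ 2 = #A * (2 * ∑ a ∈ A, r a ^ 2) := by
    simp only [sum_product, add_sq, sum_add_distrib, sum_const, nsmul_eq_mul, ← mul_sum, h0,
      mul_zero]
    ring
  have := cs (A ×ˢ A) (fun z => t z.1 z.2) (fun z => r z.1 + r z.2)
    (mul_nonneg zero_le_two (sum_nonneg fun _ _ => sq_nonneg _)) (Nat.cast_nonneg #A) h1 h2.le
  rwa [sum_product] at this

lemma wbound (A : Finset V) (k : ℕ) (φ : Finset V → ℝ) (h0 : ∑ S ∈ powersetCard k A, φ S = 0) :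
    ∑ a ∈ A, ∑ b ∈ A, (∑ S ∈ powersetCard k A, φ S * u a b S) ^ 2 /
      ∑ S ∈ powersetCard k A, u a b S ≤ #A * ∑ S ∈ powersetCard k A, φ S ^ 2 := by
  set t : V → V → ℝ := fun a b => ∑ S ∈ powersetCard k A, φ S * u a b S with ht
  have hφ : 0 ≤ ∑ S ∈ powersetCard k A, φ S ^ 2 := sum_nonneg fun _ _ => sq_nonneg _
  have tc : ∀ a b, t a b = t b a := fun a b => by simp only [ht, u_comm a b]
  have td : ∀ a, t a a = 0 := fun a => by simp [ht, u]
  by_cases hN : #A ≤ 1
  · rw [sum_eq_zero fun a ha => sum_eq_zero fun b hb => ?_]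
    · positivity
    · rw [card_le_one.1 hN a ha b hb]; simp [u]
  obtain ⟨a0, ha0, b0, hb0, hab0⟩ := one_lt_card.1 (not_le.1 hN)
  have hN2 : (2 : ℝ) ≤ #A := by exact_mod_cast not_le.1 hN
  set c := ∑ S ∈ powersetCard k A, u a0 b0 S with hc
  have hc0 : 0 ≤ c := sum_nonneg fun S _ => (u_mem _ _ S).1
  have inj : ∀ {a b : V}, a ≠ b → Function.Injective ![a, b] := fun h i j => by
    fin_cases i <;> fin_cases j <;> simp [h, h.symm]
  have h2 : ∀ a ∈ A, ∀ b ∈ A, a ≠ b → ∑ S ∈ powersetCard k A, u a b S = c := fun a ha b hb h =>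
    sym A k ![a, b] ![a0, b0] (inj h) (inj hab0) (fun i => by fin_cases i <;> simpa)
      (fun i => by fin_cases i <;> simpa) fun z => (z 0 - z 1) ^ 2
  have h3 : ∀ a ∈ A, ∀ b ∈ A, ∀ p ∈ A, a ≠ b → a ≠ p → b ≠ p →
      ∑ S ∈ powersetCard k A, u a b S * u a p S = c / 2 := fun a ha b hb p hp e1 e2 e3 => by
    simp only [u_tri, ← sum_div, sum_sub_distrib, sum_add_distrib, h2 a ha b hb e1,
      h2 a ha p hp e2, h2 b hb p hp e3]
    ring
  have h2' : ∀ a ∈ A, ∀ b ∈ A, a ≠ b → ∑ S ∈ powersetCard k A, u a b S * u a b S = c :=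
    fun a ha b hb h => by
      rw [← h2 a ha b hb h]
      exact sum_congr rfl fun S _ => by rw [u_eq]; split_ifs <;> simp
  obtain ⟨e, e0, ec, h4⟩ : ∃ e, 0 ≤ e ∧ e ≤ c ∧ ∀ a ∈ A, ∀ b ∈ A, ∀ p ∈ A, ∀ q ∈ A, Dis a b p q →
      ∑ S ∈ powersetCard k A, u a b S * u p q S = e := by
    have inj4 : ∀ {a b p q : V}, Dis a b p q → Function.Injective ![a, b, p, q] :=
      fun ⟨d1, d2, d3, d4, d5, d6⟩ i j => by
        fin_cases i <;> fin_cases j <;>
          simp [d1, d2, d3, d4, d5, d6, d1.symm, d2.symm, d3.symm, d4.symm, d5.symm, d6.symm]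
    by_cases hex : ∃ a ∈ A, ∃ b ∈ A, ∃ p ∈ A, ∃ q ∈ A, Dis a b p q
    · obtain ⟨a, ha, b, hb, p, hp, q, hq, hD⟩ := hex
      refine ⟨∑ S ∈ powersetCard k A, u a b S * u p q S, sum_nonneg fun S _ =>
        mul_nonneg (u_mem _ _ S).1 (u_mem _ _ S).1, ?_, fun a' ha' b' hb' p' hp' q' hq' hD' => ?_⟩
      · rw [← h2 a ha b hb hD.1]
        exact sum_le_sum fun S _ => mul_le_of_le_one_right (u_mem _ _ S).1 (u_mem _ _ S).2
      · exact sym A k ![a', b', p', q'] ![a, b, p, q] (inj4 hD') (inj4 hD)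
          (fun i => by fin_cases i <;> simpa) (fun i => by fin_cases i <;> simpa)
          fun z => (z 0 - z 1) ^ 2 * (z 2 - z 3) ^ 2
    · exact ⟨0, le_rfl, hc0, fun a ha b hb p hp q hq hD =>
        absurd ⟨a, ha, b, hb, p, hp, q, hq, hD⟩ hex⟩
  have t0 : ∑ a ∈ A, ∑ b ∈ A, t a b = 0 := by
    have : ∀ S ∈ powersetCard k A, ∑ a ∈ A, ∑ b ∈ A, φ S * u a b S =
        φ S * (2 * #A * k - 2 * k * k) := fun S hS => by
      have e : ∀ a b, u a b S = x a S + x b S - 2 * (x a S * x b S) := fun a b => by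
        linear_combination (exp := 1) x_sq a S + x_sq b S + (by rfl : u a b S = (x a S - x b S) ^ 2)
      simp only [e, ← mul_sum, sum_sub_distrib, sum_add_distrib, sum_const, nsmul_eq_mul,
        ← sum_mul, sum_x hS]
      ring
    rw [sum_congr rfl fun a _ => sum_comm, sum_comm, sum_congr rfl this, ← sum_mul, h0, zero_mul]
  set r : V → ℝ := fun a => ∑ b ∈ A, t a b with hr
  set Q := ∑ a ∈ A, ∑ b ∈ A, t a b ^ 2 with hQ
  have hQ0 : 0 ≤ Q := sum_nonneg fun _ _ => sum_nonneg fun _ _ => sq_nonneg _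
  have hM : ∀ a ∈ A, ∀ b ∈ A, ∀ p ∈ A, ∀ q ∈ A,
      ∑ S ∈ powersetCard k A, t a b * u a b S * (t p q * u p q S) = t a b * (e * t p q +
        (c / 2 - e) * ((if p = a then t p q else 0) + (if q = a then t p q else 0) +
          (if p = b then t p q else 0) + if q = b then t p q else 0) +
        e * ((if q = b then if p = a then t p q else 0 else 0) +
          if q = a then if p = b then t p q else 0 else 0)) := by
    intro a ha b hb p hp q hq
    have : ∑ S ∈ powersetCard k A, t a b * u a b S * (t p q * u p q S) =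
        t a b * t p q * ∑ S ∈ powersetCard k A, u a b S * u p q S := by
      rw [mul_sum]; exact sum_congr rfl fun S _ => by ring
    rw [this]
    by_cases hab : a = b
    · rw [hab, td]; ring
    by_cases hpq : p = q
    · rw [hpq, td]; simp
    by_cases h1 : p = a
    · subst h1
      by_cases h2 : q = b
      · subst h2
        rw [h2' p hp q hq hpq]; simp [hpq, Ne.symm hpq]; ring
      · rw [h3 p hp b hb q hq hab hpq (Ne.symm h2)]; simp [hab, h2, Ne.symm hpq]; ring
    by_cases h2 : q = a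
    · subst h2
      simp only [u_comm p q]
      by_cases h5 : p = b
      · subst h5
        rw [h2' q hq p hp hab]; simp [hpq, Ne.symm hpq]; ring
      · rw [h3 q hq b hb p hp hab (Ne.symm hpq) (Ne.symm h5)]; simp [hab, h5, hpq]; ring
    by_cases h5 : p = b
    · subst h5
      simp only [u_comm a p]
      rw [h3 p hp a ha q hq h1 hpq (Ne.symm h2)]; simp [h1, h2, Ne.symm hpq]; ring
    by_cases h6 : q = b
    · subst h6
      simp only [u_comm a q, u_comm p q]
      rw [h3 q hq a ha p hp h2 (Ne.symm hpq) (Ne.symm h1)]; simp [h1, h2, hpq]; ring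
    rw [h4 a ha b hb p hp q hq ⟨hab, Ne.symm h1, Ne.symm h2, Ne.symm h5, Ne.symm h6, hpq⟩]
    simp [h1, h2, h5, h6]; ring
  have hT : ∑ S ∈ powersetCard k A, (∑ a ∈ A, ∑ b ∈ A, t a b * u a b S) ^ 2 =
      4 * (c / 2 - e) * ∑ a ∈ A, r a ^ 2 + 2 * e * Q := by
    have e1 : ∀ a ∈ A, ∀ b ∈ A, ∑ S ∈ powersetCard k A, t a b * u a b S *
        ∑ p ∈ A, ∑ q ∈ A, t p q * u p q S =
        t a b * (2 * (c / 2 - e) * (r a + r b) + 2 * e * t a b) := fun a ha b hb => by
      have e0' : ∀ S, t a b * u a b S * ∑ p ∈ A, ∑ q ∈ A, t p q * u p q S =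
          ∑ p ∈ A, ∑ q ∈ A, t a b * u a b S * (t p q * u p q S) := fun S => by
        simp only [mul_sum]
      simp only [e0']
      rw [sum_comm, sum_congr rfl fun p hp => by
        rw [sum_comm, sum_congr rfl fun q hq => hM a ha b hb p hp q hq]]
      have s1 : ∀ z ∈ A, ∑ p ∈ A, t p z = r z := fun z _ => by simp only [hr, tc z]
      have t1 : ∑ i ∈ A, ∑ j ∈ A, t i j = 0 := t0
      have s5 : ∀ z, ∑ p ∈ A, t z p = r z := fun z => rfl
      simp only [← mul_sum, sum_add_distrib, t1, sum_ite_irrel, sum_const_zero, sum_ite_eq', ha,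
        hb, if_true, s1 a ha, s1 b hb, tc b a]
      rw [s5 a, s5 b]
      ring
    simp only [sq (∑ a ∈ A, ∑ b ∈ A, t a b * u a b _), sum_mul]
    rw [sum_comm, sum_congr rfl fun a ha => by
      rw [sum_comm, sum_congr rfl fun b hb => e1 a ha b hb]]
    have s2 : ∑ a ∈ A, ∑ b ∈ A, t a b * r b = ∑ a ∈ A, r a ^ 2 := by
      rw [sum_comm]
      exact sum_congr rfl fun a _ => by simp only [← sum_mul, sq, hr, tc a]
    have s3 : ∑ a ∈ A, ∑ b ∈ A, t a b * r a = ∑ a ∈ A, r a ^ 2 :=
      sum_congr rfl fun a _ => by rw [← sum_mul, sq]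
    have s4 : ∀ a b, t a b * (2 * (c / 2 - e) * (r a + r b) + 2 * e * t a b) =
        2 * (c / 2 - e) * (t a b * r a) + 2 * (c / 2 - e) * (t a b * r b) + 2 * e * t a b ^ 2 :=
      fun a b => by ring
    simp only [s4, sum_add_distrib, ← mul_sum, s2, s3]
    ring
  have hR := quad A t tc t0
  have hR0 : 0 ≤ ∑ a ∈ A, r a ^ 2 := sum_nonneg fun _ _ => sq_nonneg _
  have main : Q ≤ c * #A * ∑ S ∈ powersetCard k A, φ S ^ 2 := by
    refine cs _ φ (fun S => ∑ a ∈ A, ∑ b ∈ A, t a b * u a b S) hQ0 (by positivity) ?_ ?_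
    · simp only [mul_sum]
      rw [sum_comm]
      refine sum_congr rfl fun a _ => ?_
      rw [sum_comm]
      refine sum_congr rfl fun b _ => ?_
      rw [sq, mul_sum]
      exact sum_congr rfl fun S _ => by ring
    · rw [hT]
      have b1 := mul_le_mul_of_nonneg_left hN2 (mul_nonneg e0 hQ0)
      have b2 := mul_le_mul_of_nonneg_left hN2 (mul_nonneg hc0 hQ0)
      have b3 := mul_le_mul_of_nonneg_right ec hQ0
      rcases le_total e (c / 2) with h | h
      · nlinarith [mul_le_mul_of_nonneg_left hR (sub_nonneg.2 h), mul_nonneg e0 hQ0]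
      · nlinarith [mul_nonneg (sub_nonneg.2 h) hR0]
  have e2 : ∑ a ∈ A, ∑ b ∈ A, t a b ^ 2 / ∑ S ∈ powersetCard k A, u a b S = Q / c := by
    simp only [hQ, sum_div]
    refine sum_congr rfl fun a ha => sum_congr rfl fun b hb => ?_
    by_cases hab : a = b
    · simp [hab, td]
    · rw [h2 a ha b hb hab]
  rw [e2]
  exact div_le_of_le_mul₀ hc0 (by positivity) (by linarith)

end J

open J in
theorem john : JStmt := by
  intro V _ _ A k φ h0
  have h1 := gap _ A rfl k φ h0
  have hφ : 0 ≤ ∑ S ∈ powersetCard k A, φ S ^ 2 := sum_nonneg fun _ _ => sq_nonneg _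
  constructor
  · by_cases hN : #A ≤ 1
    · rw [small _ φ h0, mul_zero]
      · exact D_nonneg A k φ
      · rw [card_powersetCard]
        refine (Nat.choose_le_choose k hN).trans ?_
        rcases k with _ | _ | k
        · simp
        · simp
        · rw [Nat.choose_eq_zero_of_lt (by omega)]; exact zero_le_one
    · have : (2 : ℝ) ≤ #A := by exact_mod_cast not_le.1 hN
      refine le_trans ?_ h1
      nlinarith
  · have h2 := wbound A k φ h0
    simp only [u_eq, mul_ite, mul_one, mul_zero, ← sum_filter, sum_const, nsmul_eq_mul] at h2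
    refine le_trans ?_ h1
    linarith

end Crest.Agent.Sw
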