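import Crest.Agent.Sw.Four2

/-! Row 299: the fibre of a triple is a set of three-row matrices. -/

set_option autoImplicit false
set_option linter.unusedSectionVars false
open Finset

namespace Crest.Agent.Sw

variable {V : Type} [Fintype V] [DecidableEq V] {d : V → ℕ}

/-- pairs that meet the triple -/
def T3 (s : Fin 3 → V) (a b : V) : Prop := (∃ i, a = s i) ∨ ∃ i, b = s i

open Classical in
/-- the row of a vertex of the triple; `none` marks the absence of the opposite edge -/
noncomputable def row (s : Fin 3 → V) (G : SimpleGraph V) (i : Fin 3) : Finset (Option V) :=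
  univ.filter fun c => c.elim (¬ G.Adj (s (i + 1)) (s (i + 2))) fun c => (∀ j, c ≠ s j) ∧ G.Adj (s i) c

lemma none_row {s : Fin 3 → V} {G : SimpleGraph V} {i : Fin 3} :
    none ∈ row s G i ↔ ¬ G.Adj (s (i + 1)) (s (i + 2)) := by simp [row]

lemma some_row {s : Fin 3 → V} {G : SimpleGraph V} {i : Fin 3} {c : V} :
    some c ∈ row s G i ↔ (∀ j, c ≠ s j) ∧ G.Adj (s i) c := by simp [row]

section
variable {s : Fin 3 → V} (hs : Function.Injective s)
include hs

lemma nb_split (G : SimpleGraph V) (a : V) : open Classical in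
    (nb G a).card = (nb G a \ univ.image s).card + (univ.filter fun i => G.Adj a (s i)).card := by
  classical
  rw [← card_sdiff_add_card_inter (nb G a) (univ.image s), ← card_image_of_injective
    (univ.filter fun i => G.Adj a (s i)) hs]
  congr 2
  ext b; simp only [mem_inter, mem_nb, mem_image, mem_filter, mem_univ, true_and]
  grind

lemma row_card (G : SimpleGraph V) (i : Fin 3) :
    (row s G i).card + 2 = (nb G (s i)).card + (univ.filter fun j => none ∈ row s G j).card := by
  classical
  have e : (row s G i).card = (nb G (s i) \ univ.image s).card +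
      if none ∈ row s G i then 1 else 0 := by
    have : (row s G i).erase none = (nb G (s i) \ univ.image s).map Function.Embedding.some := by
      ext c
      cases c with
      | none => simp
      | some c => simp [some_row, and_comm, eq_comm]
    rw [← card_map (s := nb G (s i) \ univ.image s) Function.Embedding.some, ← this]
    split_ifs with h
    · rw [card_erase_add_one h]
    · rw [erase_eq_of_notMem h, add_zero]
  rw [e, nb_split hs G (s i)]
  simp only [card_filter, Fin.sum_univ_three, none_row]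
  have h01 := G.adj_comm (s 0) (s 1)
  have h02 := G.adj_comm (s 0) (s 2)
  have h12 := G.adj_comm (s 1) (s 2)
  fin_cases i <;> simp <;> split_ifs <;> grind

lemma col_card (G : SimpleGraph V) {c : V} (hc : ∀ j, c ≠ s j) : (nb G c).card =
    (nb G c \ univ.image s).card + (univ.filter fun j => some c ∈ row s G j).card := by
  classical
  rw [nb_split hs G c]
  congr 2
  ext j; simp [some_row, hc, G.adj_comm]

omit hs in
lemma col_zero (G : SimpleGraph V) (i : Fin 3) :
    (univ.filter fun j => some (s i) ∈ row s G j).card = 0 := by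
  simp [some_row]

omit hs in
lemma nb_off {G G' : SimpleGraph V} (h : ∀ a b, ¬ T3 s a b → (G.Adj a b ↔ G'.Adj a b)) {c : V}
    (hc : ∀ j, c ≠ s j) : nb G c \ univ.image s = nb G' c \ univ.image s := by
  ext b; simp only [mem_sdiff, mem_nb, mem_image, mem_univ, true_and]
  exact and_congr_left fun n => h c b (by unfold T3; grind)

lemma triple_bij (G₀ : St d) : Set.BijOn (fun G : St d => row s G.1) (cl (off (T3 s)) G₀)
    (Mat (fun c => (univ.filter fun j => c ∈ row s G₀.1 j).card) fun i => (row s G₀.1 i).card) := by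
  classical
  refine ⟨fun G hG => ?_, fun G hG G' hG' e => ?_, fun X hX => ?_⟩
  · have hG := mem_cl.1 hG
    have c1 : ∀ c, (univ.filter fun j => some c ∈ row s G.1 j).card =
        (univ.filter fun j => some c ∈ row s G₀.1 j).card := fun c => by
      by_cases hc : ∀ j, c ≠ s j
      · have e1 := col_card hs G.1 hc
        have e2 := col_card hs G₀.1 hc
        rw [nb_off hG hc] at e2
        have := G.deg G₀ c
        omega
      · obtain ⟨j, rfl⟩ : ∃ j, c = s j := by grind
        rw [col_zero, col_zero]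
    have dc : ∀ G : SimpleGraph V, ∑ i, (row s G i).card =
        (univ.filter fun j => none ∈ row s G j).card +
          ∑ c, (univ.filter fun j => some c ∈ row s G j).card := fun G => by
      rw [← Fintype.sum_option fun c => (univ.filter fun j => c ∈ row s G j).card]
      simp only [card_filter]
      rw [sum_comm]
      exact sum_congr rfl fun i _ => by simp
    have c2 : (univ.filter fun j => none ∈ row s G.1 j).card =
        (univ.filter fun j => none ∈ row s G₀.1 j).card := by
      have e1 := dc G.1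
      have e2 := dc G₀.1
      have r1 := row_card hs G.1
      have r2 := row_card hs G₀.1
      have r3 := fun i => G.deg G₀ (s i)
      rw [Fin.sum_univ_three] at e1 e2
      simp only [c1] at e1
      grind
    simp only [Mat, coe_filter, mem_univ, true_and, Set.mem_ofPred_eq]
    refine ⟨fun c => by cases c; exacts [c2, c1 _], fun i => ?_⟩
    have r1 := row_card hs G.1 i
    have r2 := row_card hs G₀.1 i
    have r3 := G.deg G₀ (s i)
    omega
  · have hG := mem_cl.1 hG
    have hG' := mem_cl.1 hG'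
    have k1 := fun i => Finset.ext_iff.1 (congrFun e i) none
    simp only [none_row, not_iff_not] at k1
    have key : ∀ i b, G.1.Adj (s i) b ↔ G'.1.Adj (s i) b := fun i b => by
      by_cases hb : ∀ j, b ≠ s j
      · simpa [some_row, hb] using Finset.ext_iff.1 (congrFun e i) (some b)
      · obtain ⟨j, rfl⟩ : ∃ j, b = s j := by grind
        rcases (by decide : ∀ i j : Fin 3, i = j ∨ (∃ k, i = k + 1 ∧ j = k + 2) ∨
          ∃ k, j = k + 1 ∧ i = k + 2) i j with rfl | ⟨k, rfl, rfl⟩ | ⟨k, rfl, rfl⟩
        exacts [by simp, k1 k, by rw [G.1.adj_comm, G'.1.adj_comm]; exact k1 k]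
    refine Subtype.ext (SimpleGraph.ext (funext fun a => funext fun b => propext ?_))
    by_cases n : T3 s a b
    · rcases n with ⟨i, rfl⟩ | ⟨i, rfl⟩
      exacts [key i b, by rw [G.1.adj_comm, G'.1.adj_comm]; exact key i a]
    · exact (hG a b n).symm.trans (hG' a b n)
  · simp only [Mat, coe_filter, mem_univ, true_and, Set.mem_ofPred_eq] at hX
    obtain ⟨hγ, hρ⟩ := hX
    have hz : ∀ i j, some (s j) ∉ X i := fun i j h => by
      have := hγ (some (s j))
      rw [col_zero, card_eq_zero, filter_eq_empty_iff] at this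
      exact this (mem_univ i) h
    let y : SimpleGraph V := SimpleGraph.fromRel fun a b => (∃ i, a = s i ∧ some b ∈ X i) ∨
      (∃ i, a = s (i + 1) ∧ b = s (i + 2) ∧ none ∉ X i) ∨ (¬ T3 s a b ∧ G₀.1.Adj a b)
    have y1 : ∀ a b, ¬ T3 s a b → (y.Adj a b ↔ G₀.1.Adj a b) := fun a b n => by
      simp only [y, SimpleGraph.fromRel_adj, G₀.1.adj_comm b]
      unfold T3 at *
      exact ⟨by grind, fun h => ⟨h.ne, by grind⟩⟩
    have y2 : row s y = X := by
      funext i; ext c
      cases c with
      | none =>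
        simp only [none_row, y, SimpleGraph.fromRel_adj, T3, hs.eq_iff, ne_eq, hz]
        fin_cases i <;> simp [Fin.exists_fin_succ]
      | some c =>
        simp only [some_row, y, SimpleGraph.fromRel_adj, T3, hs.eq_iff, ne_eq, hz]
        have := hz i
        grind
    refine ⟨⟨y, mem_Om.2 fun a => ?_⟩, mem_coe.2 (mem_cl.2 fun a b n => (y1 a b n).symm), y2⟩
    rw [← mem_Om.1 G₀.2 a]
    by_cases hc : ∀ j, a ≠ s j
    · rw [col_card hs y hc, col_card hs G₀.1 hc, nb_off y1 hc, y2, hγ]
    · obtain ⟨j, rfl⟩ : ∃ j, a = s j := by grind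
      have r1 := row_card hs y j
      have r2 := row_card hs G₀.1 j
      rw [y2, hγ, hρ] at r1
      omega

omit hs in
lemma tch_le (i : Fin 3) (G G' : St d) (h : off (Tch (s (i + 1)) (s (i + 2))) G G') :
    off (T3 s) G G' := off_mono (fun a b m => by unfold Tch at m; unfold T3; grind) _ _ h

omit hs in
lemma off_of_row {G G' : St d} (h : off (T3 s) G G') {i : Fin 3} (e : row s G.1 i = row s G'.1 i) :
    off (Tch (s (i + 1)) (s (i + 2))) G G' := by
  have key : ∀ b, b ≠ s (i + 1) → b ≠ s (i + 2) → (G.1.Adj (s i) b ↔ G'.1.Adj (s i) b) :=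
    fun b h1 h2 => by
      by_cases hb : ∀ j, b ≠ s j
      · simpa [some_row, hb] using Finset.ext_iff.1 e (some b)
      · obtain ⟨j, rfl⟩ : ∃ j, b = s j := by grind
        fin_cases i <;> fin_cases j <;> simp_all
  have h3 := (by decide : ∀ i j : Fin 3, j = i ∨ j = i + 1 ∨ j = i + 2) i
  intro a b n
  unfold Tch at n
  by_cases m : T3 s a b
  · rcases m with ⟨j, rfl⟩ | ⟨j, rfl⟩
    · rcases h3 j with rfl | rfl | rfl
      exacts [key b (by grind) (by grind), by grind, by grind]
    · rw [G.1.adj_comm, G'.1.adj_comm]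
      rcases h3 j with rfl | rfl | rfl
      exacts [key a (by grind) (by grind), by grind, by grind]
  · exact h a b m

theorem triple' (hT : TStmt) (ψ : St d → ℝ) (φ : Fin 3 → St d → ℝ)
    (hφ : ∀ i, φ i = P (off (Tch (s (i + 1)) (s (i + 2)))) ψ - P (off (T3 s)) ψ) :
    (∑ i, φ i) ⬝ᵥ (∑ i, φ i) ≤ 2 * ∑ i, φ i ⬝ᵥ φ i := by
  classical
  have e3 := off_equiv (d := d) (T3 s)
  have h := sum_nonneg_of_cl e3 (f := fun G => 2 * ∑ i, φ i G ^ 2 - (∑ i, φ i G) ^ 2) fun G₀ => by
    have : Nonempty (St d) := ⟨G₀⟩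
    have hb := triple_bij hs G₀
    set T := cl (off (T3 s)) G₀ with hT'
    let g : Fin 3 → Finset (Option V) → ℝ := fun i Y =>
      φ i (Function.invFunOn (fun G : St d => row s G.1 i) T Y)
    have g1 : ∀ i, ∀ G ∈ T, φ i G = g i (row s G.1 i) := fun i G hG => by
      have ex : ∃ G' ∈ (T : Set (St d)), row s G'.1 i = row s G.1 i := ⟨G, hG, rfl⟩
      have o := e3.trans (e3.symm (mem_cl.1 hG)) (mem_cl.1 (Function.invFunOn_mem ex))
      simp only [g, hφ, Pi.sub_apply]
      rw [P_congr e3 ψ o, P_congr (off_equiv _) ψ (off_of_row o (Function.invFunOn_eq ex).symm)]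
    have tr : ∀ (f : St d → ℝ) (f' : (Fin 3 → Finset (Option V)) → ℝ),
        (∀ G ∈ T, f G = f' (row s G.1)) → ∑ G ∈ T, f G = ∑ X ∈ _, f' X :=
      fun f f' h => sum_nbij _ hb.1 hb.2.1 hb.2.2 h
    have := hT _ _ _ g fun i => (tr (φ i) (fun X => g i (X i)) (g1 i)).symm.trans (by
      simp only [hφ, Pi.sub_apply, sum_sub_distrib]
      rw [sum_cl_P (off_equiv _) e3 (tch_le i), sum_cl_P e3 e3 fun _ _ h => h, sub_self])
    rw [sum_sub_distrib, ← mul_sum, sum_comm, tr _ (fun X => (∑ i, g i (X i)) ^ 2) fun G hG => by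
      simp only [g1 _ G hG], sum_congr rfl fun i _ => tr (fun G => φ i G ^ 2)
        (fun X => g i (X i) ^ 2) fun G hG => by simp only [g1 _ G hG]]
    linarith
  rw [sum_sub_distrib, ← mul_sum, sum_comm] at h
  simp only [dotProduct, ← sq, Finset.sum_apply]
  linarith

end

theorem triple (hT : TStmt) {u v w : V} (h1 : u ≠ v) (h2 : u ≠ w) (h3 : v ≠ w) (ψ : St d → ℝ) :
    0 ≤ hb v w ψ ⬝ᵥ hb w u ψ + hb w u ψ ⬝ᵥ hb u v ψ + hb u v ψ ⬝ᵥ hb v w ψ := by
  have hs : Function.Injective ![u, v, w] := by
    intro i j; fin_cases i <;> fin_cases j <;> simp [*, Ne.symm]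
  have e3 := off_equiv (d := d) (T3 ![u, v, w])
  set χ := ψ - P (off (T3 ![u, v, w])) ψ with hχ
  obtain ⟨φ, hφ⟩ : ∃ φ : Fin 3 → St d → ℝ, ∀ i, φ i =
    P (off (Tch (![u, v, w] (i + 1)) (![u, v, w] (i + 2)))) ψ - P (off (T3 ![u, v, w])) ψ :=
    ⟨_, fun _ => rfl⟩
  have h := triple' hs hT ψ φ hφ
  have e : ∀ i, χ ⬝ᵥ φ i = φ i ⬝ᵥ φ i := fun i => by
    have e2 := off_equiv (d := d) (Tch (![u, v, w] (i + 1)) (![u, v, w] (i + 2)))
    simp only [hφ, hχ, sub_dotProduct, dotProduct_sub, P_dot_P e2]
    rw [P_symm e2, P_P_of_le e2 e3 (tch_le i)]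
  have f : ∀ i, hb (![u, v, w] (i + 1)) (![u, v, w] (i + 2)) ψ = χ - φ i := fun i => by
    rw [hφ, hχ, hb, Hp_apply]; abel
  have f0 : hb v w ψ = _ := f 0
  have f1 : hb w u ψ = _ := f 1
  have f2 : hb u v ψ = _ := f 2
  have := dot_self_nonneg (∑ i, φ i - (2 : ℝ) • χ)
  rw [f0, f1, f2]
  simp only [Fin.sum_univ_three, sub_dotProduct, dotProduct_sub, add_dotProduct, dotProduct_add,
    smul_dotProduct, dotProduct_smul, smul_eq_mul, dotProduct_comm _ χ, e,
    dotProduct_comm (φ 1) (φ 0), dotProduct_comm (φ 2)] at this h ⊢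
  linarith

end Crest.Agent.Sw
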