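import Crest.Agent.Sw.Pair
import Crest.Agent.Sw.Triple

/-! Row 299: the Bochner inequality and the Poincaré inequality of the switch chain. -/

set_option autoImplicit false
set_option linter.unusedSectionVars false
open Finset

namespace Crest.Agent.Sw

variable {V : Type} [Fintype V] [DecidableEq V] {d : V → ℕ}

lemma bochner_abs {α : Type} [Fintype α] (a : V → V → α → ℝ) (h0 : ∀ u, a u u = 0)
    (hs : ∀ u v, a u v = a v u)
    (ht : ∀ u v w, u ≠ v → u ≠ w → v ≠ w → 0 ≤ a v w ⬝ᵥ a w u + a w u ⬝ᵥ a u v + a u v ⬝ᵥ a v w)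
    (hd : 0 ≤ ∑ u, ∑ v, ∑ k, ∑ l, if Dis u v k l then a u v ⬝ᵥ a k l else 0) :
    2 * ∑ u, ∑ v, a u v ⬝ᵥ a u v ≤ (∑ u, ∑ v, a u v) ⬝ᵥ ∑ u, ∑ v, a u v := by
  have e : ∀ u v k l, a u v ⬝ᵥ a k l = (if Dis u v k l then a u v ⬝ᵥ a k l else 0) +
      (if u = k then a u v ⬝ᵥ a u l else 0) + (if v = k then a v u ⬝ᵥ a v l else 0) +
      (if u = l then a u v ⬝ᵥ a u k else 0) + (if v = l then a v u ⬝ᵥ a v k else 0) -
      (if v = l then if u = k then a u v ⬝ᵥ a u v else 0 else 0) -
      (if u = l then if v = k then a u v ⬝ᵥ a u v else 0 else 0) := fun u v k l => by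
    by_cases h1 : u = v
    · simp [h1, h0]
    by_cases h2 : k = l
    · subst h2; simp only [h0, dotProduct_zero, ite_self]; split_ifs <;> simp_all
    have := hs u v
    have := hs k l
    unfold Dis
    split_ifs <;> grind
  have t : ∀ u v w, (if u = v then a v w ⬝ᵥ a v w else 0) + (if v = w then a w u ⬝ᵥ a w u else 0) +
      (if w = u then a u v ⬝ᵥ a u v else 0) ≤
      a w v ⬝ᵥ a w u + a u w ⬝ᵥ a u v + a v u ⬝ᵥ a v w := fun u v w => by
    by_cases h1 : u = v
    · subst h1; by_cases h : u = w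
      · simp [h, h0]
      · simp [h0, h, Ne.symm h, hs w]
    by_cases h2 : v = w
    · subst h2; simp [h0, h1, Ne.symm h1, hs v]
    by_cases h3 : w = u
    · subst h3; simp [h0, h1, h2, hs v]
    simpa [h1, h2, h3, hs w v, hs u w, hs v u] using ht u v w h1 (Ne.symm h3) h2
  have t2 := sum_le_sum fun u (_ : u ∈ univ) => sum_le_sum fun v (_ : v ∈ univ) =>
    sum_le_sum fun w (_ : w ∈ univ) => t u v w
  have c1 : ∑ u, ∑ v, ∑ w, a w v ⬝ᵥ a w u = ∑ u, ∑ v, ∑ w, a u v ⬝ᵥ a u w := by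
    rw [sum_comm, sum_congr rfl fun v _ => sum_comm, sum_comm]
  have c2 : ∑ u, ∑ v, ∑ w, a u w ⬝ᵥ a u v = ∑ u, ∑ v, ∑ w, a u v ⬝ᵥ a u w :=
    sum_congr rfl fun v _ => sum_comm
  have c3 : ∑ u, ∑ v, ∑ w, a v u ⬝ᵥ a v w = ∑ u, ∑ v, ∑ w, a u v ⬝ᵥ a u w := sum_comm
  have c4 : ∑ u, ∑ v, a v u ⬝ᵥ a v u = ∑ u, ∑ v, a u v ⬝ᵥ a u v := sum_comm
  simp only [sum_add_distrib, c1, c2, c3, sum_ite_irrel, sum_const_zero, sum_ite_eq, sum_ite_eq',
    mem_univ, if_true, c4] at t2
  simp only [sum_dotProduct]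
  simp only [dotProduct_sum]
  rw [sum_congr rfl fun u _ => sum_congr rfl fun v _ => sum_congr rfl fun k _ =>
    sum_congr rfl fun l _ => e u v k l]
  simp only [sum_add_distrib, sum_sub_distrib, c3, sum_ite_irrel, sum_const_zero, sum_ite_eq,
    mem_univ, if_true]
  linarith

/-- the generator of the pair heat-bath chain -/
noncomputable def Hs (d : V → ℕ) : (St d → ℝ) →ₗ[ℝ] (St d → ℝ) :=
  ∑ u, ∑ v, if u = v then 0 else hb u v

lemma Hs_apply (ψ : St d → ℝ) : Hs d ψ = ∑ u, ∑ v, if u = v then 0 else hb u v ψ := by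
  simp only [Hs, LinearMap.sum_apply, apply_ite (fun f : (St d → ℝ) →ₗ[ℝ] (St d → ℝ) => f ψ),
    LinearMap.zero_apply]

lemma Hs_form (ψ : St d → ℝ) : ψ ⬝ᵥ Hs d ψ = ∑ u, ∑ v,
    (if u = v then 0 else hb u v ψ) ⬝ᵥ if u = v then 0 else hb u v ψ := by
  simp only [Hs_apply, dotProduct_sum]
  refine sum_congr rfl fun u _ => sum_congr rfl fun v _ => ?_
  split_ifs
  · simp
  · exact (Hp_dot (off_equiv _) ψ).symm

lemma hb_comm (u v : V) : hb (d := d) u v = hb v u := by
  have : Tch u v = Tch v u := by funext a b; unfold Tch; grind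
  rw [hb, hb, this]

lemma bochner (hJ : JStmt) (hT : TStmt) (ψ : St d → ℝ) :
    2 * (ψ ⬝ᵥ Hs d ψ) ≤ Hs d ψ ⬝ᵥ Hs d ψ := by
  rw [Hs_form, Hs_apply]
  refine bochner_abs (fun u v => if u = v then 0 else hb u v ψ) (by simp)
    (fun u v => by simp only [eq_comm (a := u), hb_comm u]) (fun u v w h1 h2 h3 => ?_) ?_
  · simp only [h1, h2.symm, h3, if_false]
    exact triple hT h1 h2 h3 ψ
  have h1 : (∑ u, ∑ v, ∑ k, ∑ l, if Dis u v k l then Wt u v k l (hb u v ψ) else 0) ≤
      ∑ u, ∑ v, ∑ k, ∑ l, if Dis u v k l then Sq u v k l ψ else 0 :=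
    sum_le_sum fun u _ => sum_le_sum fun v _ => by
      by_cases h : u = v
      · simp [Dis, h]
      · exact (pair h hJ ψ).2
  have h2 : (∑ u, ∑ v, ∑ k, ∑ l, if Dis u v k l then Wt k l u v (hb k l ψ) else 0) =
      ∑ u, ∑ v, ∑ k, ∑ l, if Dis u v k l then Wt u v k l (hb u v ψ) else 0 := by
    have : ∀ F : V → V → V → V → ℝ, ∑ u, ∑ v, ∑ k, ∑ l, F u v k l = ∑ k, ∑ l, ∑ u, ∑ v, F u v k l :=
      fun F => by
        rw [sum_congr rfl fun u _ => sum_comm, sum_comm]
        refine sum_congr rfl fun k _ => ?_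
        rw [sum_congr rfl fun u _ => sum_comm, sum_comm]
    rw [this]
    exact sum_congr rfl fun u _ => sum_congr rfl fun v _ => sum_congr rfl fun k _ =>
      sum_congr rfl fun l _ => if_congr ⟨Dis.symm, Dis.symm⟩ rfl rfl
  have h3 := sum_le_sum fun u (_ : u ∈ univ) => sum_le_sum fun v (_ : v ∈ univ) =>
    sum_le_sum fun k (_ : k ∈ univ) => sum_le_sum fun l (_ : l ∈ univ) =>
      (show 2 * (if Dis u v k l then Sq u v k l ψ else 0) -
        (if Dis u v k l then Wt u v k l (hb u v ψ) else 0) -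
        (if Dis u v k l then Wt k l u v (hb k l ψ) else 0) ≤ 2 * if Dis u v k l then
          (if u = v then 0 else hb u v ψ) ⬝ᵥ (if k = l then 0 else hb k l ψ) else 0 by
        by_cases h : Dis u v k l
        · simp only [h, h.1, h.2.2.2.2.2, if_true, if_false]; exact four h ψ
        · simp [h])
  simp only [sum_sub_distrib, ← mul_sum] at h3
  linarith

theorem pmain (hJ : JStmt) (hT : TStmt) (hC : CStmt) : PStmt := by
  intro V _ _ d f
  classical
  rcases (Om d).eq_empty_or_nonempty with h | ⟨G₀, h⟩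
  · simp [h]
  have : Nonempty (St d) := ⟨⟨G₀, h⟩⟩
  have hN : (0 : ℝ) < (Om d).card := by exact_mod_cast card_pos.2 ⟨G₀, h⟩
  set m := (∑ G ∈ Om d, f G) / (Om d).card with hm
  have key := gap_of_bochner (Hs d) (fun f g => by
      simp only [Hs_apply, sum_dotProduct, dotProduct_sum]
      refine sum_congr rfl fun u _ => sum_congr rfl fun v _ => ?_
      split_ifs
      · simp
      · exact Hp_symm (off_equiv _) f g)
    (fun f => by
      rw [Hs_form]; exact sum_nonneg fun u _ => sum_nonneg fun v _ => dot_self_nonneg _)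
    (by
      rw [Hs_apply]
      refine sum_eq_zero fun u _ => sum_eq_zero fun v _ => ?_
      split_ifs
      · rfl
      · exact sub_eq_zero.2 (funext fun _ => (P_of_const (off_equiv _) fun _ _ => rfl).symm))
    (fun f hf x y => by
      have h1 := Hs_form f
      rw [hf, dotProduct_zero] at h1
      have := hC V d (fun G => if h : G ∈ Om d then f ⟨G, h⟩ else 0) (fun u v k l hD G hG => by
        have h2 := (sum_eq_zero_iff_of_nonneg fun v _ => dot_self_nonneg _).1
          ((sum_eq_zero_iff_of_nonneg fun u _ => sum_nonneg fun v _ => dot_self_nonneg _).1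
            h1.symm u (mem_univ _)) v (mem_univ _)
        rw [if_neg hD.1, dotProduct_self_eq_zero, hb, Hp_apply, sub_eq_zero] at h2
        have o := (rc_of_blk hD _ _ (off_swS hD ⟨G, hG⟩)).1
        rw [swS, dif_pos hD] at o
        rw [dif_pos hG, dif_pos (sw_mem hD hG), h2, P_congr (off_equiv _) f o]) x.1 x.2 y.1 y.2
      simpa using this)
    two_pos (bochner hJ hT) (fun G => f G.1 - m) (by
      rw [sum_coe_sort (Om d) fun G => f G - m, sum_sub_distrib, sum_const, nsmul_eq_mul, hm]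
      field_simp; ring)
  have k2 : (fun G : St d => f G.1 - m) ⬝ᵥ Hs d (fun G => f G.1 - m) ≤ Dir d f / 8 := by
    rw [Hs_form, Dir]
    simp only [sum_div]
    refine sum_le_sum fun u _ => sum_le_sum fun v _ => ?_
    split_ifs with h
    · simp [h, Dis]
    refine (pair h hJ _).1.trans (le_of_eq ?_)
    simp only [sum_div]
    refine sum_congr rfl fun k _ => sum_congr rfl fun l _ => ?_
    split_ifs with hD
    · rw [← sum_coe_sort (Om d), Sq, sum_div, sum_div]
      exact sum_congr rfl fun G _ => by rw [swS_val hD]; ring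
    · simp
  have k3 : (fun G : St d => f G.1 - m) ⬝ᵥ (fun G => f G.1 - m) =
      ∑ G ∈ Om d, f G ^ 2 - (∑ G ∈ Om d, f G) ^ 2 / (Om d).card := by
    rw [dotProduct, sum_coe_sort (Om d) fun G => (f G - m) * (f G - m),
      sum_congr rfl (g := fun G => f G ^ 2 - 2 * m * f G + m ^ 2) fun G _ => by ring,
      sum_add_distrib, sum_sub_distrib, ← mul_sum, sum_const, nsmul_eq_mul, hm]
    field_simp; ring
  rw [k3] at key
  have := mul_le_mul_of_nonneg_left (key.trans k2) hN.le
  rw [mul_sub, mul_sub, mul_left_comm _ 2 (_ / _), mul_div_cancel₀ _ hN.ne'] at this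
  linarith

end Crest.Agent.Sw
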