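import Crest.Agent.Sw.ThreeB

/-! Row 299, part T: the three-row inequality. -/

set_option autoImplicit false
set_option linter.unusedSectionVars false
open Finset Equiv

namespace Crest.Agent.Sw

namespace TA

lemma univ8 : (univ : Finset (Finset (Fin 3))) =
    {∅, univ, {0}, {1}, {2}, {0}ᶜ, {1}ᶜ, {2}ᶜ} := by decide

lemma sum8 (F : Finset (Fin 3) → ℕ) :
    ∑ P, F P = F ∅ + F univ + ∑ i, F {i} + ∑ i, F {i}ᶜ := by
  rw [univ8]
  iterate 7 rw [sum_insert (by decide)]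
  simp only [sum_singleton, Fin.sum_univ_three]
  ring

lemma prod8 (F : Finset (Fin 3) → ℕ) :
    ∏ P, F P = F ∅ * F univ * ((∏ i, F {i}ᶜ) * ∏ i, F {i}) := by
  rw [univ8]
  iterate 7 rw [prod_insert (by decide)]
  simp only [prod_singleton, Fin.prod_univ_three]
  ring

lemma all8 : ∀ P : Finset (Fin 3), P = ∅ ∨ P = univ ∨ (∃ i, P = {i}) ∨ ∃ i, P = {i}ᶜ := by decide

variable {V : Type} [Fintype V] [DecidableEq V] (γ : V → ℕ) (ρ : Fin 3 → ℕ)

/-- number of columns with pattern `P` -/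
def nP (f : V → Finset (Fin 3)) (P : Finset (Fin 3)) : ℕ := #{c | f c = P}

/-- number of columns with sum `j` -/
def mm (j : ℕ) : ℕ := #{c | γ c = j}

/-- row `i` -/
def row (f : V → Finset (Fin 3)) (i : Fin 3) : Finset V := {c | i ∈ f c}

/-- matrices as families of column patterns -/
def M : Finset (V → Finset (Fin 3)) := {f | (∀ c, #(f c) = γ c) ∧ ∀ i, #(row f i) = ρ i}

lemma mem_M {f : V → Finset (Fin 3)} :
    f ∈ M γ ρ ↔ (∀ c, #(f c) = γ c) ∧ ∀ i, #(row f i) = ρ i := by simp [M]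

lemma sum_Mat (φ : (Fin 3 → Finset V) → ℝ) : ∑ X ∈ Mat γ ρ, φ X = ∑ f ∈ M γ ρ, φ (row f) := by
  have h1 : ∀ X : Fin 3 → Finset V, row (fun c => {i | c ∈ X i}) = X := fun X => by
    ext i c; simp [row]
  have h2 : ∀ (f : V → Finset (Fin 3)) c, ({i | c ∈ row f i} : Finset (Fin 3)) = f c :=
    fun f c => by ext i; simp [row]
  refine sum_nbij' (fun X c => {i | c ∈ X i}) row ?_ ?_ (fun X _ => h1 X)
    (fun f _ => funext (h2 f)) (fun X _ => by rw [h1])
  · intro X hX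
    rw [mem_M, h1]
    exact (mem_filter.1 hX).2
  · intro f hf
    refine mem_filter.2 ⟨mem_univ _, fun c => ?_, ((mem_M γ ρ).1 hf).2⟩
    rw [h2]
    exact ((mem_M γ ρ).1 hf).1 c

lemma mm_eq {f : V → Finset (Fin 3)} (hf : ∀ c, #(f c) = γ c) (j : ℕ) :
    mm γ j = ∑ P, if #P = j then nP f P else 0 := by
  rw [mm, ← funext hf]
  exact cnt f fun P => #P = j

lemma facts {f : V → Finset (Fin 3)} (hf : ∀ c, #(f c) = γ c) :
    mm γ 0 = nP f ∅ ∧ mm γ 3 = nP f univ ∧ mm γ 1 = ∑ i, nP f {i} ∧ mm γ 2 = ∑ i, nP f {i}ᶜ ∧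
      (∀ j, mm γ (j + 4) = 0) ∧
      ∀ i, #(row f i) + nP f {i}ᶜ = mm γ 2 + mm γ 3 + nP f {i} := by
  have h : mm γ 0 = nP f ∅ ∧ mm γ 3 = nP f univ ∧ mm γ 1 = ∑ i, nP f {i} ∧
      mm γ 2 = ∑ i, nP f {i}ᶜ ∧ (∀ j, mm γ (j + 4) = 0) := by
    simp [mm_eq γ hf, sum8, card_compl]
  refine ⟨h.1, h.2.1, h.2.2.1, h.2.2.2.1, h.2.2.2.2, fun i => ?_⟩
  have := cnt f fun P => i ∈ P
  rw [sum8] at this
  rw [h.2.1, h.2.2.2.1, row, this]
  fin_cases i <;> simp [Fin.sum_univ_three, nP] <;> ring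

/-- the statistic -/
def yy (f : V → Finset (Fin 3)) (i : Fin 3) : ℕ := nP f {i}ᶜ

lemma count_mem {f : V → Finset (Fin 3)} (hf : f ∈ M γ ρ) :
    #{f' ∈ M γ ρ | yy f' = yy f} * ((mm γ 0).factorial * (mm γ 3).factorial *
      ((∏ i, (yy f i).factorial) * ∏ i, (nP f {i}).factorial)) = #(GG γ univ) := by
  obtain ⟨h1, h2⟩ := (mem_M γ ρ).1 hf
  obtain ⟨a0, a3, -, -, -, a⟩ := facts γ h1
  rw [← orbit γ card f h1, prod8, a0, a3]
  congr 2
  ext f'
  simp only [mem_filter, mem_univ, true_and, mem_M]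
  constructor
  · rintro ⟨⟨g1, g2⟩, g3⟩
    obtain ⟨b0, b3, -, -, -, b⟩ := facts γ g1
    have g4 : ∀ i, nP f' {i}ᶜ = nP f {i}ᶜ := congrFun g3
    refine ⟨g1, fun P => ?_⟩
    rcases all8 P with rfl | rfl | ⟨i, rfl⟩ | ⟨i, rfl⟩
    · exact b0.symm.trans a0
    · exact b3.symm.trans a3
    · have := a i; have := b i; have := g2 i; have := h2 i; have := g4 i
      change nP f' {i} = nP f {i}
      omega
    · exact g4 i
  · rintro ⟨g1, g2⟩
    obtain ⟨-, -, -, -, -, b⟩ := facts γ g1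
    refine ⟨⟨g1, fun i => ?_⟩, funext fun i => g2 _⟩
    have := a i; have := b i; have := h2 i
    have : nP f' {i} = nP f {i} := g2 _
    have : nP f' {i}ᶜ = nP f {i}ᶜ := g2 _
    omega

/-- the weights -/
noncomputable def ww (K : ℕ) (i : Fin 3) (s : ℕ) : ℝ :=
  if K ≤ ρ i + s then 1 / (s.factorial * (ρ i + s - K).factorial) else 0

lemma fact_le (u v d : ℕ) (h : u ≤ v) :
    (u + d).factorial * v.factorial ≤ u.factorial * (v + d).factorial := by
  induction d with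
  | zero => simp
  | succ d ih =>
    rw [← add_assoc, ← add_assoc, Nat.factorial_succ, Nat.factorial_succ, mul_assoc,
      mul_left_comm u.factorial]
    exact Nat.mul_le_mul (by omega) ih

lemma ww_lc (K : ℕ) (i : Fin 3) (u v d : ℕ) (h : u ≤ v) :
    ww ρ K i u * ww ρ K i (v + d) ≤ ww ρ K i (u + d) * ww ρ K i v := by
  by_cases hK : K ≤ ρ i + u
  · rw [ww, ww, ww, ww, if_pos hK, if_pos (by omega), if_pos (by omega), if_pos (by omega),
      div_mul_div_comm, div_mul_div_comm, show ρ i + (v + d) - K = ρ i + v - K + d by omega,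
      show ρ i + (u + d) - K = ρ i + u - K + d by omega]
    refine div_le_div_of_nonneg_left (by norm_num) (by positivity) ?_
    have := Nat.mul_le_mul (fact_le u v d h) (fact_le (ρ i + u - K) (ρ i + v - K) d (by omega))
    have := (Nat.cast_le (α := ℝ)).2 this
    push_cast at this
    linarith
  · rw [ww, if_neg hK, zero_mul]
    unfold ww
    positivity

lemma count {f0 : V → Finset (Fin 3)} (h0 : f0 ∈ M γ ρ) (b : Fin 3 → ℕ) (hb : ∑ i, b i = mm γ 2) :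
    ((#{f ∈ M γ ρ | yy f = b} : ℕ) : ℝ) =
      (#(GG γ univ) / ((mm γ 0).factorial * (mm γ 3).factorial)) *
        ∏ i, ww ρ (mm γ 2 + mm γ 3) i (b i) := by
  by_cases hv : ∀ i, mm γ 2 + mm γ 3 ≤ ρ i + b i
  · obtain ⟨h1, h2⟩ := (mem_M γ ρ).1 h0
    obtain ⟨-, -, a1, a2, a4, a⟩ := facts γ h1
    let c : Fin 3 → ℕ := fun i => ρ i + b i - (mm γ 2 + mm γ 3)
    have hc : ∑ i, c i = mm γ 1 := by
      have := a 0; have := a 1; have := a 2; have := h2 0; have := h2 1; have := h2 2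
      have := hv 0; have := hv 1; have := hv 2
      simp only [Fin.sum_univ_three, c] at a1 a2 hb ⊢
      omega
    obtain ⟨f, g1, g2⟩ := exists_fun γ card (fun P : Finset (Fin 3) => if #P = 0 then mm γ 0 else
        if #P = 3 then mm γ 3 else if #P = 1 then ∑ i ∈ P, c i else ∑ i ∈ Pᶜ, b i) (by
      intro j
      change mm γ j = _
      rw [sum8]
      rcases j with _ | _ | _ | _ | j <;> simp [card_compl, hc, hb]
      exact a4 j)
    have g3 : ∀ i, nP f {i} = c i := fun i => by simpa [nP] using g2 {i}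
    have g4 : yy f = b := funext fun i => by simpa [card_compl, yy, nP] using g2 {i}ᶜ
    have hf : f ∈ M γ ρ := (mem_M γ ρ).2 ⟨g1, fun i => by
      have := (facts γ g1).2.2.2.2.2 i
      have : nP f {i}ᶜ = b i := congrFun g4 i
      have := g3 i
      have := hv i
      simp only [c] at *
      omega⟩
    have := count_mem γ ρ hf
    rw [g4] at this
    rw [← this]
    simp only [g3, ww, if_pos (hv _), Fin.prod_univ_three, c]
    push_cast
    field_simp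
  · push Not at hv
    obtain ⟨i, hi⟩ := hv
    rw [prod_eq_zero (mem_univ i) (by rw [ww, if_neg (by omega)]), mul_zero, Nat.cast_eq_zero,
      card_eq_zero, filter_eq_empty_iff]
    intro f hf hy
    obtain ⟨h1, h2⟩ := (mem_M γ ρ).1 hf
    have := (facts γ h1).2.2.2.2.2 i
    have := h2 i
    have : nP f {i}ᶜ = b i := congrFun hy i
    omega

lemma exists_perm {f f' : V → Finset (Fin 3)} (hf : f ∈ M γ ρ) (hf' : f' ∈ M γ ρ) (i : Fin 3)
    (h : yy f i = yy f' i) : ∃ τ ∈ GG γ univ, ∀ c, i ∈ f (τ c) ↔ i ∈ f' c := by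
  obtain ⟨h1, h2⟩ := (mem_M γ ρ).1 hf
  obtain ⟨g1, g2⟩ := (mem_M γ ρ).1 hf'
  obtain ⟨τ, hτ⟩ := exists_equiv (fun c => (#(f' c), decide (i ∈ f' c)))
      (fun c => (#(f c), decide (i ∈ f c))) (by
    rintro ⟨j, β⟩
    rw [cnt f fun P => (#P, decide (i ∈ P)) = (j, β), cnt f' fun P => (#P, decide (i ∈ P)) = (j, β),
      sum8, sum8]
    obtain ⟨a0, a3, a1, a2, -, a⟩ := facts γ h1
    obtain ⟨b0, b3, b1, b2, -, b⟩ := facts γ g1
    have c1 := a i; have c2 := b i; have c3 := h2 i; have c4 := g2 i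
    simp only [yy, nP, Fin.sum_univ_three] at *
    clear a b
    fin_cases i <;> rcases j with _ | _ | _ | _ | j <;> cases β <;>
      simp [card_compl] at c1 c2 c3 c4 h ⊢ <;> omega)
  simp only [Prod.mk.injEq, decide_eq_decide] at hτ
  exact ⟨τ, (mem_GG γ).2 ⟨fun c => by rw [← h1, (hτ c).1, g1], by simp⟩, fun c => (hτ c).2⟩

lemma sum_comp {σ : Perm V} (hσ : σ ∈ GG γ univ) (φ : (V → Finset (Fin 3)) → ℝ) :
    ∑ f ∈ M γ ρ, φ (f ∘ σ) = ∑ f ∈ M γ ρ, φ f := by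
  have key : ∀ σ : Perm V, (∀ c, γ (σ c) = γ c) → ∀ f ∈ M γ ρ, f ∘ σ ∈ M γ ρ := by
    intro σ hσ f hf
    rw [mem_M] at hf ⊢
    refine ⟨fun c => (hf.1 _).trans (hσ c), fun i => ?_⟩
    rw [← hf.2 i]
    exact card_equiv σ (by simp [row])
  have h1 := ((mem_GG γ).1 hσ).1
  refine sum_nbij' (fun f => f ∘ σ) (fun f => f ∘ σ.symm) (key σ h1)
    (key σ.symm fun c => by rw [← h1]; simp) ?_ ?_ fun _ _ => rfl
  all_goals intro f _; ext c; simp

lemma sum_mul_left {τ : Perm V} (hτ : τ ∈ GG γ univ) (φ : Perm V → ℝ) :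
    ∑ σ ∈ GG γ univ, φ (τ * σ) = ∑ σ ∈ GG γ univ, φ σ := by
  have h1 := ((mem_GG γ).1 hτ).1
  refine sum_nbij' (fun σ => τ * σ) (fun σ => τ⁻¹ * σ) ?_ ?_ ?_ ?_ fun _ _ => rfl
  · intro σ hσ
    exact (mem_GG γ).2 ⟨fun c => (h1 _).trans (((mem_GG γ).1 hσ).1 c), by simp⟩
  · intro σ hσ
    refine (mem_GG γ).2 ⟨fun c => ?_, by simp⟩
    rw [← h1, ← ((mem_GG γ).1 hσ).1 c]
    simp
  all_goals intro σ _; simp

end TA

open TA in
theorem three : TStmt := by
  intro V _ _ γ ρ g hg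
  have hrow : ∀ (f f' : V → Finset (Fin 3)) i, (∀ c, i ∈ f c ↔ i ∈ f' c) →
      g i (row f i) = g i (row f' i) := fun f f' i h => by
    congr 1; ext c; simp [row, h]
  suffices h : 0 ≤ ∑ f ∈ M γ ρ, Q fun i => g i (row f i) by
    rw [sum_comm, sum_Mat, sum_Mat, mul_sum, ← sub_nonneg, ← sum_sub_distrib]
    exact h
  rcases (M γ ρ).eq_empty_or_nonempty with h0 | ⟨f0, h0⟩
  · simp [h0]
  have hq : ∀ f ∈ M γ ρ, ∑ i, yy f i = mm γ 2 := fun f hf =>
    (facts γ ((mem_M γ ρ).1 hf).1).2.2.2.1.symm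
  have h1 := scalar (M γ ρ) yy (mm γ 2) hq
    (mlr _ _ _ hq _ (ww ρ (mm γ 2 + mm γ 3)) (fun i s => by unfold ww; positivity) (ww_lc ρ _)
      (count γ ρ h0))
    (fun f i => ∑ σ ∈ GG γ univ, g i (row (f ∘ σ) i)) (by
      intro i f hf f' hf' h
      obtain ⟨τ, hτ, h⟩ := exists_perm γ ρ hf hf' i h
      rw [← sum_mul_left γ hτ]
      exact sum_congr rfl fun σ _ => hrow _ _ _ fun c => h _) (by
      intro i
      rw [sum_comm]
      refine sum_eq_zero fun σ hσ => ?_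
      rw [sum_comp γ ρ hσ fun f => g i (row f i), ← hg i, sum_Mat])
  have h2 := h1.trans (sum_le_sum fun f hf =>
    avg γ (fun f i => g i (row f i)) hrow univ f ((mem_M γ ρ).1 hf).1)
  rw [← mul_sum, sum_comm,
    sum_congr rfl fun σ hσ => sum_comp γ ρ hσ fun f => Q fun i => g i (row f i),
    sum_const, nsmul_eq_mul] at h2
  have hG : (0 : ℝ) < #(GG γ univ) :=
    Nat.cast_pos.2 (card_pos.2 ⟨1, (mem_GG γ).2 ⟨fun _ => rfl, by simp⟩⟩)
  exact (mul_nonneg_iff_of_pos_left hG).1 ((mul_nonneg_iff_of_pos_left hG).1 h2)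

end Crest.Agent.Sw
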