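import Crest.Prelude.Def_SwitchChain

/-! Row 299 (S0453, switch chain): shared definitions and interface statements. -/

set_option autoImplicit false
set_option linter.unusedSectionVars false
open Finset

namespace Crest.Agent.Sw

section
variable {V : Type} [Fintype V] [DecidableEq V]

open Classical in
/-- neighbourhood as a finite set -/
noncomputable def nb (G : SimpleGraph V) (v : V) : Finset V := univ.filter fun b => G.Adj v b

@[simp] lemma mem_nb {G : SimpleGraph V} {v b : V} : b ∈ nb G v ↔ G.Adj v b := by simp [nb]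

open Classical in
/-- graphs with degree vector `d` -/
noncomputable def Om (d : V → ℕ) : Finset (SimpleGraph V) :=
  univ.filter fun G => ∀ v, (nb G v).card = d v

lemma mem_Om {d : V → ℕ} {G : SimpleGraph V} : G ∈ Om d ↔ ∀ v, (nb G v).card = d v := by
  simp [Om]

/-- the four pairs between `{u, v}` and `{k, l}` -/
def Blk (u v k l a b : V) : Prop :=
  ((a = u ∨ a = v) ∧ (b = k ∨ b = l)) ∨ ((b = u ∨ b = v) ∧ (a = k ∨ a = l))

/-- `G` contains exactly one of the two matchings `uk, vl` and `ul, vk` and misses the other -/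
def Cen (u v k l : V) (G : SimpleGraph V) : Prop :=
  (G.Adj u k ↔ G.Adj v l) ∧ (G.Adj u l ↔ G.Adj v k) ∧ ¬ (G.Adj u k ↔ G.Adj u l)

/-- the switch `uk, vl ↔ ul, vk` (identity when it is not available) -/
def sw (u v k l : V) (G : SimpleGraph V) : SimpleGraph V where
  Adj a b := a ≠ b ∧ (G.Adj a b ↔ ¬ (Cen u v k l G ∧ Blk u v k l a b))
  symm := ⟨fun a b h => ⟨h.1.symm, by rw [G.adj_comm, h.2, Blk, Blk, or_comm]⟩⟩
  loopless := ⟨fun a h => h.1 rfl⟩

/-- pairwise distinct -/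
def Dis (u v k l : V) : Prop := u ≠ v ∧ u ≠ k ∧ u ≠ l ∧ v ≠ k ∧ v ≠ l ∧ k ≠ l

instance (u v k l : V) : Decidable (Dis u v k l) := by unfold Dis; infer_instance

lemma sw_of_not {u v k l : V} {G : SimpleGraph V} (h : ¬ Cen u v k l G) : sw u v k l G = G := by
  ext a b
  simp only [sw, h, false_and, not_false_eq_true, iff_true]
  exact ⟨fun h => h.2, fun h => ⟨h.ne, h⟩⟩

lemma sw_adj_of_not {u v k l a b : V} (G : SimpleGraph V) (h : ¬ Blk u v k l a b) :
    (sw u v k l G).Adj a b ↔ G.Adj a b := by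
  simp only [sw, h, and_false, not_false_eq_true, iff_true]
  exact ⟨fun h => h.2, fun h => ⟨h.ne, h⟩⟩

lemma sw_adj_of {u v k l a b : V} {G : SimpleGraph V} (hD : Dis u v k l) (hC : Cen u v k l G)
    (h : Blk u v k l a b) : (sw u v k l G).Adj a b ↔ ¬ G.Adj a b := by
  have : a ≠ b := by
    rintro rfl
    obtain ⟨h1, h2, h3, h4, h5, h6⟩ := hD
    rcases h with ⟨rfl | rfl, h | h⟩ | ⟨rfl | rfl, h | h⟩ <;> contradiction
  simp [sw, h, hC, this]

lemma cen_sw {u v k l : V} {G : SimpleGraph V} (hD : Dis u v k l) :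
    Cen u v k l (sw u v k l G) ↔ Cen u v k l G := by
  by_cases hC : Cen u v k l G
  · simp only [hC, iff_true]
    unfold Cen
    rw [sw_adj_of hD hC (by simp [Blk]), sw_adj_of hD hC (by simp [Blk]),
      sw_adj_of hD hC (by simp [Blk]), sw_adj_of hD hC (by simp [Blk])]
    unfold Cen at hC; tauto
  · rw [sw_of_not hC]

lemma sw_sw {u v k l : V} (hD : Dis u v k l) (G : SimpleGraph V) :
    sw u v k l (sw u v k l G) = G := by
  by_cases hC : Cen u v k l G
  · ext a b
    by_cases h : Blk u v k l a b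
    · rw [sw_adj_of hD ((cen_sw hD).2 hC) h, sw_adj_of hD hC h, not_not]
    · rw [sw_adj_of_not _ h, sw_adj_of_not _ h]
  · rw [sw_of_not hC, sw_of_not hC]

lemma card_eq_of_swap {s t : Finset V} (k l : V)
    (h : ∀ b, b ∈ s ↔ Equiv.swap k l b ∈ t) : s.card = t.card :=
  card_equiv (Equiv.swap k l) h

lemma sw_mem {d : V → ℕ} {u v k l : V} (hD : Dis u v k l) {G : SimpleGraph V} (hG : G ∈ Om d) :
    sw u v k l G ∈ Om d := by
  by_cases hC : Cen u v k l G
  swap
  · rwa [sw_of_not hC]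
  rw [mem_Om] at hG ⊢
  intro a
  rw [← hG a]
  have hD' := hD
  obtain ⟨h1, h2, h3, h4, h5, h6⟩ := hD'
  have hC' := hC
  obtain ⟨c1, c2, c3⟩ := hC'
  by_cases ha : a = u ∨ a = v
  · refine card_eq_of_swap k l fun b => ?_
    rw [mem_nb, mem_nb]
    by_cases hk : b = k
    · rw [hk, Equiv.swap_apply_left, sw_adj_of hD hC (Or.inl ⟨ha, Or.inl rfl⟩)]
      rcases ha with rfl | rfl <;> tauto
    by_cases hl : b = l
    · rw [hl, Equiv.swap_apply_right, sw_adj_of hD hC (Or.inl ⟨ha, Or.inr rfl⟩)]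
      rcases ha with rfl | rfl <;> tauto
    rw [Equiv.swap_apply_of_ne_of_ne hk hl, sw_adj_of_not]
    rintro (h | h)
    · tauto
    · rcases ha with rfl | rfl <;> tauto
  by_cases ha' : a = k ∨ a = l
  · refine card_eq_of_swap u v fun b => ?_
    rw [mem_nb, mem_nb]
    by_cases hk : b = u
    · rw [hk, Equiv.swap_apply_left, sw_adj_of hD hC (Or.inr ⟨Or.inl rfl, ha'⟩), G.adj_comm,
        G.adj_comm a]
      rcases ha' with rfl | rfl <;> tauto
    by_cases hl : b = v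
    · rw [hl, Equiv.swap_apply_right, sw_adj_of hD hC (Or.inr ⟨Or.inr rfl, ha'⟩), G.adj_comm,
        G.adj_comm a]
      rcases ha' with rfl | rfl <;> tauto
    rw [Equiv.swap_apply_of_ne_of_ne hk hl, sw_adj_of_not]
    rintro (h | h) <;> tauto
  · congr 1
    ext b
    rw [mem_nb, mem_nb, sw_adj_of_not]
    rintro (h | h) <;> tauto

/-- Dirichlet form of the switches (every switch is counted for eight ordered quadruples) -/
noncomputable def Dir (d : V → ℕ) (f : SimpleGraph V → ℝ) : ℝ :=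
  ∑ u, ∑ v, ∑ k, ∑ l, if Dis u v k l then ∑ G ∈ Om d, (f G - f (sw u v k l G)) ^ 2 else 0

/-- three rows with prescribed column sums `γ` and row sums `ρ` -/
def Mat (γ : V → ℕ) (ρ : Fin 3 → ℕ) : Finset (Fin 3 → Finset V) :=
  univ.filter fun X => (∀ c, (univ.filter fun i => c ∈ X i).card = γ c) ∧ ∀ i, (X i).card = ρ i

end

/-- Johnson scheme inequalities -/
def JStmt : Prop :=
  ∀ (V : Type) [Fintype V] [DecidableEq V] (A : Finset V) (k : ℕ) (φ : Finset V → ℝ),
    ∑ S ∈ powersetCard k A, φ S = 0 →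
    8 * ∑ S ∈ powersetCard k A, φ S ^ 2 ≤
      ∑ a ∈ A, ∑ b ∈ A, ∑ S ∈ powersetCard k A, (φ S - φ (S.image (Equiv.swap a b))) ^ 2 ∧
    4 * ∑ a ∈ A, ∑ b ∈ A, (∑ S ∈ powersetCard k A with ¬ (a ∈ S ↔ b ∈ S), φ S) ^ 2 /
        (((powersetCard k A).filter fun S => ¬ (a ∈ S ↔ b ∈ S)).card : ℝ) ≤
      ∑ a ∈ A, ∑ b ∈ A, ∑ S ∈ powersetCard k A, (φ S - φ (S.image (Equiv.swap a b))) ^ 2

/-- three-row inequality -/
def TStmt : Prop :=
  ∀ (V : Type) [Fintype V] [DecidableEq V] (γ : V → ℕ) (ρ : Fin 3 → ℕ) (g : Fin 3 → Finset V → ℝ),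
    (∀ i, ∑ X ∈ Mat γ ρ, g i (X i) = 0) →
    ∑ X ∈ Mat γ ρ, (∑ i, g i (X i)) ^ 2 ≤ 2 * ∑ i, ∑ X ∈ Mat γ ρ, g i (X i) ^ 2

/-- irreducibility of the switch chain -/
def CStmt : Prop :=
  ∀ (V : Type) [Fintype V] [DecidableEq V] (d : V → ℕ) (f : SimpleGraph V → ℝ),
    (∀ u v k l, Dis u v k l → ∀ G ∈ Om d, f (sw u v k l G) = f G) →
    ∀ G ∈ Om d, ∀ G' ∈ Om d, f G = f G'

/-- Poincaré inequality -/
def PStmt : Prop :=
  ∀ (V : Type) [Fintype V] [DecidableEq V] (d : V → ℕ) (f : SimpleGraph V → ℝ),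
    16 * (((Om d).card : ℝ) * ∑ G ∈ Om d, f G ^ 2 - (∑ G ∈ Om d, f G) ^ 2) ≤
      (Om d).card * Dir d f

/-- the statement S0453 -/
def FinalStmt : Prop :=
  ∀ (n : ℕ) (_ : 4 ≤ n) (d : Fin n → ℕ) (_ : (Crest.SwitchChain.realizations d).Nonempty),
    (∃ t : ℕ, t ≤ 2 * n ^ 8 ∧ ∀ G ∈ Crest.SwitchChain.realizations d,
        Crest.SwitchChain.tvDist (fun G' => (Crest.SwitchChain.kernel n ^ t) G G')
          (Crest.SwitchChain.unifOn (Crest.SwitchChain.realizations d)) ≤ 1 / 4) ∧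
      ∀ f : Finset (Crest.SwitchChain.Edge n) → ℝ,
        ((Crest.SwitchChain.realizations d).card : ℝ) *
              (∑ G ∈ Crest.SwitchChain.realizations d, f G ^ 2) -
            (∑ G ∈ Crest.SwitchChain.realizations d, f G) ^ 2 ≤
          24 * (n : ℝ) ^ 2 * (n.choose 4 : ℝ) * (Crest.SwitchChain.realizations d).card *
            ∑ G ∈ Crest.SwitchChain.realizations d,
              f G * (f G - ∑ G' ∈ Crest.SwitchChain.realizations d,
                Crest.SwitchChain.kernel n G G' * f G')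

end Crest.Agent.Sw
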