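import Crest.Agent.Sw.Defs

/-! 299-F, part A: mixing of a lazy symmetric chain from a Poincaré inequality. -/

set_option autoImplicit false
open Finset

namespace Crest.Agent.Sw.FA

variable {X : Type} [Fintype X] [DecidableEq X]

structure Lazy (K : Matrix X X ℝ) (Ω : Finset X) : Prop where
  symm : ∀ a b, K a b = K b a
  lazy : ∀ a b, (if a = b then 1 / 2 else 0) ≤ K a b
  row : ∀ a, ∑ b, K a b = 1
  cl : ∀ a ∈ Ω, ∀ b, b ∉ Ω → K a b = 0

variable {K : Matrix X X ℝ} {Ω : Finset X}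

theorem Lazy.sum_eq (h : Lazy K Ω) {a : X} (ha : a ∈ Ω) (f : X → ℝ) :
    ∑ b ∈ Ω, K a b * f b = ∑ b, K a b * f b :=
  sum_subset (subset_univ _) fun b _ hb => by rw [h.cl a ha b hb, zero_mul]

theorem Lazy.row' (h : Lazy K Ω) {a : X} (ha : a ∈ Ω) : ∑ b ∈ Ω, K a b = 1 := by
  have := h.sum_eq ha (fun _ => 1)
  simpa [h.row] using this

theorem Lazy.col (h : Lazy K Ω) (f : X → ℝ) :
    ∑ a ∈ Ω, ∑ b ∈ Ω, K a b * f b = ∑ b ∈ Ω, f b := by
  rw [sum_comm]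
  refine sum_congr rfl fun b hb => ?_
  rw [← sum_mul]
  simp_rw [fun a => h.symm a b]
  rw [h.row' hb, one_mul]

theorem Lazy.dirichlet (h : Lazy K Ω) (f : X → ℝ) :
    2 * ∑ a ∈ Ω, f a * (f a - ∑ b ∈ Ω, K a b * f b) =
      ∑ a ∈ Ω, ∑ b ∈ Ω, K a b * (f a - f b) ^ 2 := by
  have h1 : ∀ a ∈ Ω, ∑ b ∈ Ω, K a b * (f a - f b) ^ 2 =
      f a ^ 2 - 2 * (f a * ∑ b ∈ Ω, K a b * f b) + ∑ b ∈ Ω, K a b * f b ^ 2 := by
    intro a ha
    have : ∀ b, K a b * (f a - f b) ^ 2 =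
        f a ^ 2 * K a b - 2 * (f a * (K a b * f b)) + K a b * f b ^ 2 := fun b => by ring
    simp_rw [this, sum_add_distrib, sum_sub_distrib, ← mul_sum, h.row' ha, mul_one]
  rw [sum_congr rfl h1, sum_add_distrib, h.col (fun b => f b ^ 2), ← sum_add_distrib, mul_sum]
  exact sum_congr rfl fun a _ => by ring

theorem Lazy.sq_le (h : Lazy K Ω) (g : X → ℝ) :
    ∑ a ∈ Ω, (∑ b ∈ Ω, K a b * g b) ^ 2 ≤ ∑ a ∈ Ω, g a * ∑ b ∈ Ω, K a b * g b := by
  set Q : X → X → ℝ := fun a b => 2 * K a b - if a = b then 1 else 0 with hQ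
  have q0 : ∀ a b, 0 ≤ Q a b := by
    intro a b
    have := h.lazy a b
    simp only [hQ]
    split_ifs at this ⊢ <;> linarith
  have q1 : ∀ a ∈ Ω, ∀ f : X → ℝ, ∑ b ∈ Ω, Q a b * f b = 2 * ∑ b ∈ Ω, K a b * f b - f a := by
    intro a ha f
    simp only [hQ, sub_mul, sum_sub_distrib, mul_assoc, ← mul_sum, ite_mul, one_mul, zero_mul]
    rw [sum_ite_eq, if_pos ha]
  have q2 : ∀ a ∈ Ω, (∑ b ∈ Ω, Q a b * g b) ^ 2 ≤ ∑ b ∈ Ω, Q a b * g b ^ 2 := by
    intro a ha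
    have h1 : ∑ b ∈ Ω, Q a b = 1 := by
      have := q1 a ha (fun _ => 1)
      simp only [mul_one, h.row' ha] at this
      linarith
    have h2 := sum_sq_le_sum_mul_sum_of_sq_le_mul Ω (r := fun b => Q a b * g b)
      (f := fun b => Q a b) (g := fun b => Q a b * g b ^ 2) (fun b _ => q0 a b)
      (fun b _ => mul_nonneg (q0 a b) (sq_nonneg _)) (fun b _ => le_of_eq (by ring))
    rwa [h1, one_mul] at h2
  have q3 : ∑ a ∈ Ω, ∑ b ∈ Ω, Q a b * g b ^ 2 = ∑ a ∈ Ω, g a ^ 2 := by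
    rw [sum_congr rfl fun a ha => q1 a ha (fun b => g b ^ 2), sum_sub_distrib, ← mul_sum,
      h.col (fun b => g b ^ 2)]
    ring
  have q4 := (sum_le_sum q2).trans_eq q3
  rw [sum_congr rfl fun a ha => by rw [q1 a ha g]] at q4
  have q5 : ∑ a ∈ Ω, (2 * ∑ b ∈ Ω, K a b * g b - g a) ^ 2 =
      4 * ∑ a ∈ Ω, (∑ b ∈ Ω, K a b * g b) ^ 2 - 4 * ∑ a ∈ Ω, g a * ∑ b ∈ Ω, K a b * g b +
        ∑ a ∈ Ω, g a ^ 2 := by
    rw [mul_sum, mul_sum, ← sum_sub_distrib, ← sum_add_distrib]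
    exact sum_congr rfl fun a _ => by ring
  linarith

theorem Lazy.pow_symm (h : Lazy K Ω) (t : ℕ) (a b : X) : (K ^ t) a b = (K ^ t) b a := by
  have h1 : K.IsSymm := Matrix.IsSymm.ext fun a b => h.symm b a
  exact ((h1.pow t).apply a b).symm

theorem Lazy.mix (h : Lazy K Ω) {L : ℝ} (hL : 1 ≤ L)
    (hP : ∀ f : X → ℝ, (Ω.card : ℝ) * ∑ a ∈ Ω, f a ^ 2 - (∑ a ∈ Ω, f a) ^ 2 ≤
      L * Ω.card * ∑ a ∈ Ω, f a * (f a - ∑ b ∈ Ω, K a b * f b))
    {G : X} (hG : G ∈ Ω) (t : ℕ) :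
    (∑ a, |(K ^ t) G a - Crest.SwitchChain.unifOn Ω a|) ^ 2 ≤ Ω.card * (1 - 1 / L) ^ t := by
  have hc : (0 : ℝ) < Ω.card := by exact_mod_cast card_pos.2 ⟨G, hG⟩
  have hL0 : 0 < L := by linarith
  have hq : 0 ≤ 1 - 1 / L := by
    rw [sub_nonneg, div_le_one hL0]; exact hL
  have step : ∀ t a, (K ^ (t + 1)) a G = ∑ b, K a b * (K ^ t) b G := by
    intro t a; rw [pow_succ', Matrix.mul_apply]
  have off : ∀ t a, a ∉ Ω → (K ^ t) a G = 0 := by
    intro t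
    induction t with
    | zero =>
      intro a ha
      have : a ≠ G := fun e => ha (e ▸ hG)
      simp [Matrix.one_apply_ne this]
    | succ t ih =>
      intro a ha
      rw [step]
      refine sum_eq_zero fun b _ => ?_
      by_cases hb : b ∈ Ω
      · rw [h.symm, h.cl b hb a ha, zero_mul]
      · rw [ih b hb, mul_zero]
  have main : ∀ t, ∑ a ∈ Ω, ((K ^ t) a G - 1 / Ω.card) = 0 ∧
      ∑ a ∈ Ω, ((K ^ t) a G - 1 / Ω.card) ^ 2 ≤ (1 - 1 / L) ^ t := by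
    intro t
    induction t with
    | zero =>
      have e1 : ∑ a ∈ Ω, (1 : Matrix X X ℝ) a G = 1 := by
        simp only [Matrix.one_apply]; rw [sum_ite_eq', if_pos hG]
      have e2 : ∑ a ∈ Ω, ((1 : Matrix X X ℝ) a G) ^ 2 = 1 := by
        rw [← e1]
        refine (sum_congr rfl fun a _ => ?_).trans e1 |>.trans e1.symm
        simp only [Matrix.one_apply]; split_ifs <;> simp
      constructor
      · rw [pow_zero, sum_sub_distrib, e1, sum_const, nsmul_eq_mul]; field_simp; ring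
      · have : ∀ a, ((1 : Matrix X X ℝ) a G - 1 / Ω.card) ^ 2 = ((1 : Matrix X X ℝ) a G) ^ 2 -
            2 / Ω.card * (1 : Matrix X X ℝ) a G + (1 / Ω.card) ^ 2 := fun a => by ring
        simp_rw [pow_zero, this, sum_add_distrib, sum_sub_distrib, ← mul_sum, e1, e2, sum_const,
          nsmul_eq_mul]
        have : (Ω.card : ℝ) * (1 / Ω.card) ^ 2 = 1 / Ω.card := by field_simp
        rw [this]
        have : (0 : ℝ) < 1 / Ω.card := by positivity
        have e3 : (2 : ℝ) / Ω.card = 2 * (1 / Ω.card) := by ring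
        rw [e3]; linarith
    | succ t ih =>
      obtain ⟨i1, i2⟩ := ih
      set g : X → ℝ := fun a => (K ^ t) a G - 1 / Ω.card with hg
      have e1 : ∀ a ∈ Ω, (K ^ (t + 1)) a G - 1 / Ω.card = ∑ b ∈ Ω, K a b * g b := by
        intro a ha
        simp only [hg, mul_sub, sum_sub_distrib]
        rw [step, h.sum_eq ha, ← sum_mul, h.row' ha, one_mul]
      constructor
      · rw [sum_congr rfl e1, h.col g]; exact i1
      · rw [sum_congr rfl fun a ha => by rw [e1 a ha]]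
        refine (h.sq_le g).trans ?_
        have e2 := hP g
        rw [i1] at e2
        have e3 : ∑ a ∈ Ω, g a * (g a - ∑ b ∈ Ω, K a b * g b) =
            ∑ a ∈ Ω, g a ^ 2 - ∑ a ∈ Ω, g a * ∑ b ∈ Ω, K a b * g b := by
          rw [← sum_sub_distrib]; exact sum_congr rfl fun a _ => by ring
        rw [e3] at e2
        have e4 : ∑ a ∈ Ω, g a ^ 2 ≤
            L * (∑ a ∈ Ω, g a ^ 2 - ∑ a ∈ Ω, g a * ∑ b ∈ Ω, K a b * g b) := by
          refine le_of_mul_le_mul_left ?_ hc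
          nlinarith
        have e5 : ∑ a ∈ Ω, g a * ∑ b ∈ Ω, K a b * g b ≤ (1 - 1 / L) * ∑ a ∈ Ω, g a ^ 2 := by
          refine le_of_mul_le_mul_left ?_ hL0
          have : L * ((1 - 1 / L) * ∑ a ∈ Ω, g a ^ 2) = (L - 1) * ∑ a ∈ Ω, g a ^ 2 := by
            field_simp
          rw [this]; linarith
        rw [pow_succ']
        exact e5.trans (mul_le_mul_of_nonneg_left i2 hq)
  have e1 : ∑ a, |(K ^ t) G a - Crest.SwitchChain.unifOn Ω a| =
      ∑ a ∈ Ω, |(K ^ t) a G - 1 / Ω.card| := by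
    rw [← sum_subset (subset_univ Ω)]
    · refine sum_congr rfl fun a ha => ?_
      rw [h.pow_symm, Crest.SwitchChain.unifOn, if_pos ha]
    · intro a _ ha
      rw [h.pow_symm, off t a ha, Crest.SwitchChain.unifOn, if_neg ha]; simp
  rw [e1]
  refine sq_sum_le_card_mul_sum_sq.trans ?_
  simp_rw [sq_abs]
  exact mul_le_mul_of_nonneg_left (main t).2 hc.le

end Crest.Agent.Sw.FA
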