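import Mathlib

/-! Row 299: averaging operators along equivalence relations. -/

set_option autoImplicit false
set_option linter.unusedSectionVars false
open Finset

namespace Crest.Agent.Sw

variable {α : Type} [Fintype α]

open Classical in
/-- class of a point -/
noncomputable def cl (r : α → α → Prop) (x : α) : Finset α := univ.filter (r x)

@[simp] lemma mem_cl {r : α → α → Prop} {x y : α} : y ∈ cl r x ↔ r x y := by simp [cl]

/-- average over the class -/
noncomputable def P (r : α → α → Prop) : (α → ℝ) →ₗ[ℝ] (α → ℝ) where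
  toFun f x := (∑ y ∈ cl r x, f y) / (cl r x).card
  map_add' f g := by funext x; simp [sum_add_distrib, add_div]
  map_smul' c f := by funext x; simp [← mul_sum, mul_div_assoc]

lemma P_apply (r : α → α → Prop) (f : α → ℝ) (x : α) :
    P r f x = (∑ y ∈ cl r x, f y) / (cl r x).card := rfl

variable {r s : α → α → Prop}

lemma cl_eq (hr : Equivalence r) {x y : α} (h : r x y) : cl r x = cl r y := by
  ext z; simp only [mem_cl]; exact ⟨hr.trans (hr.symm h), hr.trans h⟩

lemma cl_pos (hr : Equivalence r) (x : α) : (0 : ℝ) < (cl r x).card := by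
  exact_mod_cast card_pos.2 ⟨x, mem_cl.2 (hr.refl x)⟩

lemma P_congr (hr : Equivalence r) (f : α → ℝ) {x y : α} (h : r x y) : P r f x = P r f y := by
  rw [P_apply, P_apply, cl_eq hr h]

lemma P_of_const (hr : Equivalence r) {f : α → ℝ} {x : α} {c : ℝ} (h : ∀ y, r x y → f y = c) :
    P r f x = c := by
  rw [P_apply, sum_congr rfl fun y hy => h y (mem_cl.1 hy), sum_const, nsmul_eq_mul,
    mul_div_cancel_left₀ _ (cl_pos hr x).ne']

lemma P_symm (hr : Equivalence r) (f g : α → ℝ) : P r f ⬝ᵥ g = f ⬝ᵥ P r g := by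
  classical
  simp only [dotProduct, P_apply, sum_div, sum_mul, mul_sum]
  rw [sum_comm' (s' := fun y => cl r y) (t' := univ)]
  · refine sum_congr rfl fun y _ => sum_congr rfl fun x hx => ?_
    rw [cl_eq hr (mem_cl.1 hx)]; ring
  · intro x y
    simp only [mem_univ, true_and, mem_cl, and_true]
    exact ⟨hr.symm, hr.symm⟩

lemma P_P_of_le (hr : Equivalence r) (hs : Equivalence s) (h : ∀ x y, r x y → s x y)
    (f : α → ℝ) : P r (P s f) = P s f :=
  funext fun _ => P_of_const hr fun _ hy => (P_congr hs f (h _ _ hy)).symm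

lemma P_P_of_ge (hr : Equivalence r) (hs : Equivalence s) (h : ∀ x y, r x y → s x y)
    (f : α → ℝ) : P s (P r f) = P s f :=
  dotProduct_eq _ _ fun g => by rw [P_symm hs, P_symm hr, P_P_of_le hr hs h, P_symm hs]

lemma P_P (hr : Equivalence r) (f : α → ℝ) : P r (P r f) = P r f := P_P_of_le hr hr (fun _ _ h => h) f

lemma dot_self_nonneg (f : α → ℝ) : 0 ≤ f ⬝ᵥ f := sum_nonneg fun _ _ => mul_self_nonneg _

lemma P_dot_P (hr : Equivalence r) (f g : α → ℝ) : P r f ⬝ᵥ P r g = f ⬝ᵥ P r g := by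
  rw [P_symm hr, P_P hr]

lemma P_contr (hr : Equivalence r) (f : α → ℝ) : P r f ⬝ᵥ P r f ≤ f ⬝ᵥ f := by
  have h := dot_self_nonneg (f - P r f)
  simp only [sub_dotProduct, dotProduct_sub] at h
  rw [P_dot_P hr, P_symm hr] at h
  rw [P_dot_P hr]; linarith

lemma sum_P (hr : Equivalence r) (f : α → ℝ) : ∑ x, P r f x = ∑ x, f x := by
  have h := P_symm hr f fun _ => 1
  have e : P r (fun _ => (1 : ℝ)) = fun _ => 1 := funext fun _ => P_of_const hr fun _ _ => rfl
  rw [e] at h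
  simpa [dotProduct] using h

lemma sum_nonneg_of_cl (hr : Equivalence r) {f : α → ℝ} (h : ∀ x, 0 ≤ ∑ y ∈ cl r x, f y) :
    0 ≤ ∑ x, f x := by
  rw [← sum_P hr]
  exact sum_nonneg fun x _ => div_nonneg (h x) (cl_pos hr x).le

/-- the sum over a class of a coarser relation is unchanged -/
lemma sum_cl_P (hr : Equivalence r) (hs : Equivalence s) (h : ∀ x y, r x y → s x y)
    (f : α → ℝ) (x : α) : ∑ y ∈ cl s x, P r f y = ∑ y ∈ cl s x, f y := by
  have := congrFun (P_P_of_ge hr hs h f) x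
  rwa [P_apply, P_apply, div_left_inj' (cl_pos hs x).ne'] at this

lemma grid_aux (hr : Equivalence r) (hs : Equivalence s) (inj : ∀ x y, r x y → s x y → x = y)
    (ex : ∀ x z z', r x z → s x z' → ∃ y, s z y ∧ r z' y) (f : α → ℝ) (x : α) (m : α → α → α)
    (hm : ∀ z z', r x z → s x z' → s z (m z z') ∧ r z' (m z z')) :
    P r (P s f) x = (∑ z ∈ cl r x, ∑ z' ∈ cl s x, f (m z z')) / ((cl r x).card * (cl s x).card) := by
  have key : ∀ z ∈ cl r x, Set.BijOn (m z) (cl s x) (cl s z) := fun z hz => by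
    rw [mem_cl] at hz
    refine ⟨fun z' h => ?_, fun a ha b hb e => ?_, fun y hy => ?_⟩
    · exact mem_coe.2 (mem_cl.2 (hm z z' hz (mem_cl.1 h)).1)
    · have ha' := mem_cl.1 ha
      have hb' := mem_cl.1 hb
      exact inj _ _ (hr.trans (hm z a hz ha').2 (e ▸ hr.symm (hm z b hz hb').2))
        (hs.trans (hs.symm ha') hb')
    · have hy' := mem_cl.1 hy
      obtain ⟨w, h1, h2⟩ := ex z x y (hr.symm hz) hy'
      exact ⟨w, mem_coe.2 (mem_cl.2 h1), inj _ _ (hr.trans (hr.symm (hm z w hz h1).2) (hr.symm h2))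
        (hs.trans (hs.symm (hm z w hz h1).1) hy')⟩
  rw [P_apply, mul_comm, ← div_div]
  congr 1
  rw [sum_div]
  refine sum_congr rfl fun z hz => ?_
  rw [P_apply, ← card_nbij _ (key z hz).1 (key z hz).2.1 (key z hz).2.2,
    sum_nbij (g := f) (m z) (key z hz).1 (key z hz).2.1 (key z hz).2.2 fun _ _ => rfl]

/-- two equivalence relations that form a grid have commuting averages -/
lemma P_comm (hr : Equivalence r) (hs : Equivalence s) (inj : ∀ x y, r x y → s x y → x = y)
    (ex : ∀ x z z', r x z → s x z' → ∃ y, s z y ∧ r z' y) (f : α → ℝ) :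
    P r (P s f) = P s (P r f) := by
  funext x
  have : ∀ z z', ∃ y, r x z → s x z' → s z y ∧ r z' y := fun z z' => by
    by_cases h : r x z ∧ s x z'
    · obtain ⟨y, hy⟩ := ex x z z' h.1 h.2
      exact ⟨y, fun _ _ => hy⟩
    · exact ⟨x, fun h1 h2 => (h ⟨h1, h2⟩).elim⟩
  choose m hm using this
  rw [grid_aux hr hs inj ex f x m hm, grid_aux hs hr (fun x y h1 h2 => inj x y h2 h1)
    (fun x z z' h1 h2 => (ex x z' z h2 h1).imp fun _ h => h.symm) f x (fun z' z => m z z')
    (fun z' z h1 h2 => (hm z z' h2 h1).symm), sum_comm, mul_comm]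

lemma dot_nonneg_of_comm (hr : Equivalence r) (hs : Equivalence s)
    (h : ∀ f, P r (P s f) = P s (P r f)) (f : α → ℝ) : 0 ≤ (f - P r f) ⬝ᵥ (f - P s f) := by
  have h0 := dot_self_nonneg (f - P s f - P r (f - P s f))
  have e : ∀ g : α → ℝ, (g - P r g) ⬝ᵥ (g - P r g) = (g - P r g) ⬝ᵥ g := fun g => by
    simp only [sub_dotProduct, dotProduct_sub, P_dot_P hr]; ring
  rw [e] at h0
  refine h0.trans (le_of_eq ?_)
  have e2 : P s (f - P s f) = 0 := by rw [map_sub, P_P hs, sub_self]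
  have e3 : f - P s f - P r (f - P s f) = (f - P r f) - P s (f - P r f) := by
    simp only [map_sub, h]; abel
  rw [e3, sub_dotProduct (f - P r f), P_symm hs, e2, dotProduct_zero, sub_zero]

open Classical in
lemma sum_nonneg_of_grid (hr : Equivalence r) (hs : Equivalence s) {p : α → Prop}
    (hpr : ∀ x y, r x y → p x → p y) (hps : ∀ x y, s x y → p x → p y)
    (inj : ∀ x y, p x → r x y → s x y → x = y)
    (ex : ∀ x z z', p x → r x z → s x z' → ∃ y, s z y ∧ r z' y) (f : α → ℝ) :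
    0 ≤ ∑ x, if p x then (f x - P r f x) * (f x - P s f x) else 0 := by
  have eqv : ∀ {r : α → α → Prop}, Equivalence r → (∀ x y, r x y → p x → p y) →
      Equivalence fun x y => (p x ∧ r x y) ∨ x = y := fun hr hp =>
    ⟨fun _ => Or.inr rfl, fun h => h.imp (fun h => ⟨hp _ _ h.2 h.1, hr.symm h.2⟩) Eq.symm, by
      rintro x y z (h | rfl) (h' | rfl)
      exacts [Or.inl ⟨h.1, hr.trans h.2 h'.2⟩, Or.inl h, Or.inl h', Or.inr rfl]⟩
  have val : ∀ {r : α → α → Prop}, Equivalence r → (∀ x y, r x y → p x → p y) → ∀ x,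
      P (fun x y => (p x ∧ r x y) ∨ x = y) f x = if p x then P r f x else f x := by
    intro r hr hp x
    split_ifs with h
    · have : cl (fun x y => (p x ∧ r x y) ∨ x = y) x = cl r x := by
        ext y; simp only [mem_cl, h, true_and]
        exact ⟨fun h => h.elim id fun e => e ▸ hr.refl x, Or.inl⟩
      rw [P_apply, P_apply, this]
    · exact P_of_const (eqv hr hp) fun y hy => hy.elim (fun a => (h a.1).elim) fun e => e ▸ rfl
  have h := dot_nonneg_of_comm (eqv hr hpr) (eqv hs hps) (P_comm (eqv hr hpr) (eqv hs hps) (by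
    rintro x y (h | h) (h' | h')
    exacts [inj x y h.1 h.2 h'.2, h', h, h]) (by
    rintro x z z' (h | rfl) h'
    · rcases h' with h' | rfl
      · obtain ⟨y, h1, h2⟩ := ex x z z' h.1 h.2 h'.2
        exact ⟨y, Or.inl ⟨hpr _ _ h.2 h.1, h1⟩, Or.inl ⟨hps _ _ h'.2 h.1, h2⟩⟩
      · exact ⟨z, Or.inr rfl, Or.inl h⟩
    · exact ⟨z', h', Or.inr rfl⟩)) f
  refine h.trans (le_of_eq (sum_congr rfl fun x _ => ?_))
  simp only [Pi.sub_apply, val hr hpr, val hs hps]
  split_ifs <;> simp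

/-- orthogonal splitting along a projection that commutes with both operators -/
lemma dot_split (R M N : (α → ℝ) →ₗ[ℝ] (α → ℝ)) (hs : ∀ f g, R f ⬝ᵥ g = f ⬝ᵥ R g)
    (hi : ∀ f, R (R f) = R f) (hM : ∀ f, M (R f) = R (M f)) (hN : ∀ f, N (R f) = R (N f))
    (f : α → ℝ) : M f ⬝ᵥ N f = M (R f) ⬝ᵥ N (R f) + M (f - R f) ⬝ᵥ N (f - R f) := by
  have e1 : M (R f) ⬝ᵥ N f = M (R f) ⬝ᵥ N (R f) := by rw [hM, hN, hs, hs, hi]
  have e2 : M f ⬝ᵥ N (R f) = M (R f) ⬝ᵥ N (R f) := by rw [hM, hN, hs, hi]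
  simp only [map_sub, sub_dotProduct, dotProduct_sub, e1, e2]
  ring

/-- complement of the average -/
noncomputable def Hp (r : α → α → Prop) : (α → ℝ) →ₗ[ℝ] (α → ℝ) := LinearMap.id - P r

lemma Hp_apply (r : α → α → Prop) (f : α → ℝ) : Hp r f = f - P r f := rfl

lemma Hp_symm (hr : Equivalence r) (f g : α → ℝ) : Hp r f ⬝ᵥ g = f ⬝ᵥ Hp r g := by
  simp only [Hp_apply, sub_dotProduct, dotProduct_sub, P_symm hr]

lemma Hp_dot (hr : Equivalence r) (f : α → ℝ) : Hp r f ⬝ᵥ Hp r f = f ⬝ᵥ Hp r f := by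
  simp only [Hp_apply, sub_dotProduct, dotProduct_sub, P_dot_P hr, P_symm hr]; ring

lemma Hp_contr (hr : Equivalence r) (f : α → ℝ) : Hp r f ⬝ᵥ Hp r f ≤ f ⬝ᵥ f := by
  have := dot_self_nonneg (P r f)
  rw [Hp_dot hr, Hp_apply, dotProduct_sub, ← P_dot_P hr]; linarith

/-- a Bochner inequality gives a spectral gap -/
lemma gap_of_bochner [Nonempty α] (H : (α → ℝ) →ₗ[ℝ] (α → ℝ))
    (hs : ∀ f g, H f ⬝ᵥ g = f ⬝ᵥ H g) (h0 : ∀ f, 0 ≤ f ⬝ᵥ H f) (h1 : H (fun _ => 1) = 0)
    (hk : ∀ f, H f = 0 → ∀ x y, f x = f y) {c : ℝ} (hc : 0 < c)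
    (hB : ∀ f, c * (f ⬝ᵥ H f) ≤ H f ⬝ᵥ H f) (f : α → ℝ) (hf : ∑ x, f x = 0) :
    c * (f ⬝ᵥ f) ≤ f ⬝ᵥ H f := by
  have ht : Equivalence fun _ _ : α => True := ⟨fun _ => trivial, id, fun _ _ => trivial⟩
  set J := P fun _ _ : α => True with hJ
  have hsum : ∀ g, ∑ x, H g x = 0 := fun g => by
    have := hs g fun _ => 1
    rw [h1] at this; simpa [dotProduct] using this
  have hcl : ∀ x : α, cl (fun _ _ : α => True) x = univ := fun x => by ext; simp
  have hJ0 : ∀ g, ∑ x, g x = 0 → J g = 0 := fun g hg => funext fun x => by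
    rw [hJ, P_apply, hcl, hg]; simp
  have hJ1 : ∀ g, (H + J) g = 0 ∨ (H + J) g = f → J g = 0 := fun g hg => by
    have h2 : J ((H + J) g) = 0 := by
      rcases hg with hg | hg <;> rw [hg]
      exacts [map_zero _, hJ0 f hf]
    rwa [LinearMap.add_apply, map_add, hJ0 _ (hsum g), zero_add, P_P ht] at h2
  have hinj : Function.Injective (H + J) := by
    rw [← LinearMap.ker_eq_bot, LinearMap.ker_eq_bot']
    intro g hg
    have h2 := hJ1 g (Or.inl hg)
    rw [LinearMap.add_apply, h2, add_zero] at hg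
    funext x
    rw [← P_of_const ht (x := x) fun y _ => hk g hg y x, ← hJ, h2]
  obtain ⟨g, hg⟩ := LinearMap.surjective_of_injective hinj f
  have h2 := hJ1 g (Or.inr hg)
  rw [LinearMap.add_apply, h2, add_zero] at hg
  have h3 := h0 (c • g - f)
  have h4 := hB g
  simp only [map_sub, map_smul, sub_dotProduct, dotProduct_sub, smul_dotProduct,
    dotProduct_smul, smul_eq_mul, ← hs g, hg] at h3
  rw [hg] at h4
  nlinarith

end Crest.Agent.Sw
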