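import Crest.Agent.Sw.Defs
import Crest.Agent.Sw.Proj

/-! Row 299: the heat-bath operators of two disjoint pairs. -/

set_option autoImplicit false
set_option linter.unusedSectionVars false
open Finset

namespace Crest.Agent.Sw

variable {V : Type} [Fintype V] [DecidableEq V] {d : V → ℕ}

/-- states -/
abbrev St (d : V → ℕ) : Type := {G // G ∈ Om d}

/-- equal outside `X` -/
def off (X : V → V → Prop) (G G' : St d) : Prop := ∀ a b, ¬ X a b → (G.1.Adj a b ↔ G'.1.Adj a b)

lemma off_equiv (X : V → V → Prop) : Equivalence (off (d := d) X) :=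
  ⟨fun _ _ _ _ => Iff.rfl, fun h a b n => (h a b n).symm,
    fun h h' a b n => (h a b n).trans (h' a b n)⟩

lemma off_mono {X Y : V → V → Prop} (h : ∀ a b, X a b → Y a b) (G G' : St d) (hG : off X G G') :
    off Y G G' := fun a b n => hG a b fun x => n (h a b x)

/-- pairs that meet `{u, v}` -/
def Tch (u v a b : V) : Prop := a = u ∨ a = v ∨ b = u ∨ b = v

/-- the switch on states -/
noncomputable def swS (u v k l : V) (G : St d) : St d :=
  if h : Dis u v k l then ⟨sw u v k l G.1, sw_mem h G.2⟩ else G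

lemma swS_val {u v k l : V} (h : Dis u v k l) (G : St d) : (swS u v k l G).1 = sw u v k l G.1 := by
  rw [swS, dif_pos h]

lemma swS_swS {u v k l : V} (h : Dis u v k l) (G : St d) : swS u v k l (swS u v k l G) = G :=
  Subtype.ext (by rw [swS_val h, swS_val h, sw_sw h])

lemma off_swS {u v k l : V} (h : Dis u v k l) (G : St d) : off (Blk u v k l) G (swS u v k l G) :=
  fun a b n => by rw [swS_val h, sw_adj_of_not _ n]

/-- the same number of true statements -/
def Two (p q p' q' : Prop) : Prop := (p ∧ q ↔ p' ∧ q') ∧ (p ∨ q ↔ p' ∨ q')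

lemma card_two {u v : V} (h : u ≠ v) (s : Finset V) : s.card = ((s.erase u).erase v).card +
    (if u ∈ s then 1 else 0) + (if v ∈ s then 1 else 0) := by
  have h1 : ∀ (t : Finset V) (a : V), t.card = (t.erase a).card + if a ∈ t then 1 else 0 :=
    fun t a => by
      split_ifs with h
      · rw [card_erase_add_one h]
      · rw [erase_eq_of_notMem h, add_zero]
  rw [h1 s u, h1 (s.erase u) v]
  simp only [mem_erase, ne_eq, h.symm, not_false_eq_true, true_and]
  omega

lemma deg_iff {u v : V} (h : u ≠ v) {G G' : SimpleGraph V} {a : V}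
    (hr : ∀ b, b ≠ u → b ≠ v → (G.Adj a b ↔ G'.Adj a b)) :
    (nb G a).card = (nb G' a).card ↔ Two (G.Adj a u) (G.Adj a v) (G'.Adj a u) (G'.Adj a v) := by
  have e : ((nb G a).erase u).erase v = ((nb G' a).erase u).erase v := by
    ext b; simp only [mem_erase, mem_nb]
    exact and_congr_right fun h1 => and_congr_right fun h2 => hr b h2 h1
  rw [card_two h (nb G a), card_two h (nb G' a), e, Two, ← mem_nb, ← mem_nb, ← mem_nb, ← mem_nb]
  split_ifs <;> simp [*] <;> omega

lemma St.deg (G G' : St d) (a : V) : (nb G.1 a).card = (nb G'.1 a).card :=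
  (mem_Om.1 G.2 a).trans (mem_Om.1 G'.2 a).symm

lemma col_inv {u v : V} (h : u ≠ v) {G G' : St d} (hG : off (Tch u v) G G') {c : V} (h1 : c ≠ u)
    (h2 : c ≠ v) : Two (G.1.Adj u c) (G.1.Adj v c) (G'.1.Adj u c) (G'.1.Adj v c) := by
  rw [G.1.adj_comm u, G.1.adj_comm v, G'.1.adj_comm u, G'.1.adj_comm v]
  exact (deg_iff h fun b h3 h4 => hG c b (by unfold Tch; tauto)).1 (G.deg G' c)

lemma ex_disj {X Y : V → V → Prop} (hX : ∀ a b, X a b → X b a) (hXY : ∀ a b, X a b → ¬ Y a b)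
    {x z z' : St d} (h : off X x z) (h' : off Y x z') : ∃ y : St d,
      (∀ a b, X a b → (y.1.Adj a b ↔ z.1.Adj a b)) ∧ off X z' y := by
  classical
  let y : SimpleGraph V :=
    { Adj := fun a b => (X a b ∧ z.1.Adj a b) ∨ (¬ X a b ∧ z'.1.Adj a b)
      symm := ⟨fun a b h => h.imp (fun h => ⟨hX _ _ h.1, h.2.symm⟩)
        fun h => ⟨fun x => h.1 (hX _ _ x), h.2.symm⟩⟩
      loopless := ⟨fun a h => h.elim (fun h => h.2.ne rfl) fun h => h.2.ne rfl⟩ }
  refine ⟨⟨y, mem_Om.2 fun a => ?_⟩, fun a b n => by simp [y, n], fun a b n => by simp [y, n]⟩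
  have e := fun G : SimpleGraph V => card_filter_add_card_filter_not (s := nb G a) (X a)
  have e1 : (nb y a).filter (X a) = (nb z.1 a).filter (X a) := by
    ext b; simp only [mem_filter, mem_nb, y]; tauto
  have e2 : (nb y a).filter (fun b => ¬ X a b) = (nb z'.1 a).filter fun b => ¬ X a b := by
    ext b; simp only [mem_filter, mem_nb, y]; tauto
  have e3 : (nb x.1 a).filter (fun b => ¬ X a b) = (nb z.1 a).filter fun b => ¬ X a b := by
    ext b; simp only [mem_filter, mem_nb]; exact and_congr_left (h a b)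
  have e4 : (nb x.1 a).filter (X a) = (nb z'.1 a).filter (X a) := by
    ext b; simp only [mem_filter, mem_nb]; exact and_congr_left fun n => h' a b (hXY a b n)
  have e5 := e y
  have e6 := e x.1
  have e7 := e z.1
  have e8 := e z'.1
  rw [e1, e2] at e5
  rw [e3, e4] at e6
  have := mem_Om.1 x.2 a
  have := mem_Om.1 z.2 a
  have := mem_Om.1 z'.2 a
  omega

lemma comm_disj {X Y : V → V → Prop} (hX : ∀ a b, X a b → X b a) (hXY : ∀ a b, X a b → ¬ Y a b)
    (p : St d → Prop) (hp : ∀ G G' : St d, (∀ a b, X a b → (G.1.Adj a b ↔ G'.1.Adj a b)) →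
      (p G ↔ p G')) (f : St d → ℝ) :
    P (fun G G' => off X G G' ∧ (p G ↔ p G')) (P (off Y) f) =
      P (off Y) (P (fun G G' => off X G G' ∧ (p G ↔ p G')) f) := by
  have hX' := off_equiv (d := d) X
  refine P_comm ⟨fun x => ⟨hX'.refl x, Iff.rfl⟩, fun h => ⟨hX'.symm h.1, h.2.symm⟩,
    fun h h' => ⟨hX'.trans h.1 h'.1, h.2.trans h'.2⟩⟩ (off_equiv Y) (fun x y h h' => ?_)
    (fun x z z' h h' => ?_) f
  · refine Subtype.ext (SimpleGraph.ext (funext fun a => funext fun b => propext ?_))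
    by_cases n : X a b
    exacts [h' a b (hXY a b n), h.1 a b n]
  · obtain ⟨y, h1, h2⟩ := ex_disj hX hXY h.1 h'
    refine ⟨y, fun a b n => ?_, h2, ?_⟩
    · by_cases m : X a b
      exacts [(h1 a b m).symm, (h.1 a b m).symm.trans ((h' a b n).trans (h2 a b m))]
    · exact (hp x z' fun a b n => h' a b (hXY a b n)).symm.trans (h.2.trans (hp y z h1).symm)

lemma comm_off {X Y : V → V → Prop} (hX : ∀ a b, X a b → X b a) (hXY : ∀ a b, X a b → ¬ Y a b)
    (f : St d → ℝ) : P (off X) (P (off Y) f) = P (off Y) (P (off X) f) := by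
  simpa using comm_disj hX hXY (fun _ => True) (fun _ _ _ => Iff.rfl) f

lemma blk_congr {u v k l : V} {G G' : SimpleGraph V} (h1 : G.Adj u k ↔ G'.Adj u k)
    (h2 : G.Adj u l ↔ G'.Adj u l) (h3 : G.Adj v k ↔ G'.Adj v k) (h4 : G.Adj v l ↔ G'.Adj v l)
    (a b : V) (h : Blk u v k l a b) : G.Adj a b ↔ G'.Adj a b := by
  rcases h with ⟨rfl | rfl, rfl | rfl⟩ | ⟨rfl | rfl, rfl | rfl⟩ <;>
    first | assumption | (rw [G.adj_comm, G'.adj_comm]; assumption)

lemma Dis.symm {u v k l : V} (h : Dis u v k l) : Dis k l u v := by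
  obtain ⟨h1, h2, h3, h4, h5, h6⟩ := h
  exact ⟨h6, h2.symm, h4.symm, h3.symm, h5.symm, h1⟩

lemma blk_iff {u v k l : V} (h : Dis u v k l) (a b : V) :
    Blk u v k l a b ↔ Tch u v a b ∧ Tch k l a b := by
  obtain ⟨h1, h2, h3, h4, h5, h6⟩ := h
  unfold Blk Tch
  constructor
  · tauto
  · rintro ⟨rfl | rfl | rfl | rfl, h⟩ <;> tauto

lemma blk_symm (u v k l : V) : Blk k l u v = Blk u v k l := by
  funext a b; unfold Blk; exact propext (by tauto)

lemma cen_symm (u v k l : V) (G : SimpleGraph V) : Cen k l u v G ↔ Cen u v k l G := by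
  unfold Cen; rw [G.adj_comm k u, G.adj_comm k v, G.adj_comm l u, G.adj_comm l v]; tauto

lemma tch_symm (u v a b : V) (h : Tch u v a b) : Tch u v b a := by unfold Tch at *; tauto

/-- pairs that meet `{u, v}` and miss `{k, l}` -/
def Out (u v k l a b : V) : Prop := Tch u v a b ∧ ¬ Tch k l a b

section
variable {u v k l : V} (hD : Dis u v k l)
include hD

lemma cols {G G' : St d} (h : off (Tch u v) G G') :
    Two (G.1.Adj u k) (G.1.Adj v k) (G'.1.Adj u k) (G'.1.Adj v k) ∧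
    Two (G.1.Adj u l) (G.1.Adj v l) (G'.1.Adj u l) (G'.1.Adj v l) :=
  ⟨col_inv hD.1 h hD.2.1.symm hD.2.2.2.1.symm, col_inv hD.1 h hD.2.2.1.symm hD.2.2.2.2.1.symm⟩

lemma rows {G G' : St d} (h : off (Tch k l) G G') :
    Two (G.1.Adj u k) (G.1.Adj u l) (G'.1.Adj u k) (G'.1.Adj u l) ∧
    Two (G.1.Adj v k) (G.1.Adj v l) (G'.1.Adj v k) (G'.1.Adj v l) := by
  simpa only [SimpleGraph.adj_comm _ k, SimpleGraph.adj_comm _ l] using cols hD.symm h

lemma off_out {G G' : St d} (h : off (Tch u v) G G') (h1 : G.1.Adj u k ↔ G'.1.Adj u k)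
    (h2 : G.1.Adj u l ↔ G'.1.Adj u l) (h3 : G.1.Adj v k ↔ G'.1.Adj v k)
    (h4 : G.1.Adj v l ↔ G'.1.Adj v l) : off (Out u v k l) G G' := fun a b n => by
  by_cases m : Tch u v a b
  · exact blk_congr h1 h2 h3 h4 a b ((blk_iff hD a b).2 ⟨m, by_contra fun x => n ⟨m, x⟩⟩)
  · exact h a b m

lemma blk_of_out {G G' : St d} (h : off (Out u v k l) G G') (a b : V) (m : Blk u v k l a b) :
    G.1.Adj a b ↔ G'.1.Adj a b := h a b fun x => x.2 ((blk_iff hD a b).1 m).2

lemma cen_of_blk {G G' : SimpleGraph V} (h : ∀ a b, Blk u v k l a b → (G.Adj a b ↔ G'.Adj a b)) :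
    Cen u v k l G ↔ Cen u v k l G' := by
  unfold Cen
  rw [h u k (by simp [Blk]), h u l (by simp [Blk]), h v k (by simp [Blk]), h v l (by simp [Blk])]

lemma swS_adj {G : St d} (hC : Cen u v k l G.1) :
    ((swS u v k l G).1.Adj u k ↔ ¬ G.1.Adj u k) ∧ ((swS u v k l G).1.Adj u l ↔ ¬ G.1.Adj u l) ∧
    ((swS u v k l G).1.Adj v k ↔ ¬ G.1.Adj v k) ∧ ((swS u v k l G).1.Adj v l ↔ ¬ G.1.Adj v l) := by
  rw [swS_val hD]
  exact ⟨sw_adj_of hD hC (by simp [Blk]), sw_adj_of hD hC (by simp [Blk]),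
    sw_adj_of hD hC (by simp [Blk]), sw_adj_of hD hC (by simp [Blk])⟩

lemma eq_or_of_off_blk {G G' : St d} (h : off (Blk u v k l) G G') :
    G' = G ∨ G' = swS u v k l G := by
  obtain ⟨⟨a1, a2⟩, a3, a4⟩ := cols hD (off_mono (fun a b m => ((blk_iff hD a b).1 m).1) _ _ h)
  obtain ⟨⟨a5, a6⟩, a7, a8⟩ := rows hD (off_mono (fun a b m => ((blk_iff hD a b).1 m).2) _ _ h)
  have key : ∀ {G G' : St d}, off (Blk u v k l) G G' →
      (∀ a b, Blk u v k l a b → (G.1.Adj a b ↔ G'.1.Adj a b)) → G' = G := fun h h' =>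
    Subtype.ext (SimpleGraph.ext (funext fun a => funext fun b => propext
      (Iff.symm (by by_cases n : Blk u v k l a b; exacts [h' a b n, h a b n]))))
  by_cases h1 : G.1.Adj u k ↔ G'.1.Adj u k
  · exact Or.inl (key h (blk_congr h1 (by grind) (by grind) (by grind)))
  · have hC : Cen u v k l G.1 := by unfold Cen; grind
    obtain ⟨b1, b2, b3, b4⟩ := swS_adj hD hC
    obtain ⟨c1, c2, c3⟩ := hC
    exact Or.inr (key ((off_equiv _).trans ((off_equiv _).symm (off_swS hD G)) h)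
      (blk_congr (by grind) (by grind) (by grind) (by grind)))

lemma P_blk (f : St d → ℝ) (G : St d) :
    P (off (Blk u v k l)) f G = (f G + f (swS u v k l G)) / 2 := by
  classical
  by_cases h : G = swS u v k l G
  · rw [← h, add_self_div_two]
    exact P_of_const (off_equiv _) fun y hy => by
      rcases eq_or_of_off_blk hD hy with e | e
      · rw [e]
      · rw [e, ← h]
  · have : cl (off (Blk u v k l)) G = {G, swS u v k l G} := by
      ext y; simp only [mem_cl, mem_insert, mem_singleton]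
      refine ⟨eq_or_of_off_blk hD, ?_⟩
      rintro (rfl | rfl)
      exacts [(off_equiv _).refl _, off_swS hD G]
    rw [P_apply, this, sum_pair h, card_pair h]; rfl

omit hD in
/-- exactly one of the columns `k`, `l` is active -/
def Od (u v k l : V) (G : St d) : Prop :=
  ¬ ((G.1.Adj u k ↔ G.1.Adj v k) ↔ (G.1.Adj u l ↔ G.1.Adj v l))

lemma ex_odd {x z z' : St d} (ho : Od u v k l x) (h : off (Tch u v) x z) (h' : off (Tch k l) x z') :
    ∃ y : St d, off (Tch k l) z y ∧ off (Tch u v) z' y := by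
  have hD' := hD
  obtain ⟨d1, d2, d3, d4, d5, d6⟩ := hD'
  let F : V → V → Prop := fun a b =>
    ((z.1.Adj a k ∨ z.1.Adj a l) ∧ (z'.1.Adj u b ∨ z'.1.Adj v b) ∧
      ¬ ((z.1.Adj u k ∨ z.1.Adj u l) ∧ (z.1.Adj v k ∨ z.1.Adj v l))) ∨
    (z.1.Adj a k ∧ z.1.Adj a l) ∨ (z'.1.Adj u b ∧ z'.1.Adj v b)
  let y : SimpleGraph V := SimpleGraph.fromRel fun a b =>
    ((a = u ∨ a = v) ∧ (b = k ∨ b = l) ∧ F a b) ∨ (Out u v k l a b ∧ z.1.Adj a b) ∨
      (¬ Tch u v a b ∧ z'.1.Adj a b)
  have y1 : ∀ a b, (a = u ∨ a = v) → (b = k ∨ b = l) → (y.Adj a b ↔ F a b) := by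
    intro a b ha hb
    simp only [y, SimpleGraph.fromRel_adj, Out, Tch]
    rcases ha with rfl | rfl <;> rcases hb with rfl | rfl <;> simp [*, Ne.symm]
  have y2 : ∀ a b, ¬ Tch u v a b → (y.Adj a b ↔ z'.1.Adj a b) := by
    intro a b n
    have n' : ¬ Tch u v b a := fun x => n (tch_symm _ _ _ _ x)
    simp only [y, SimpleGraph.fromRel_adj, Out, n, n', z'.1.adj_comm b]
    unfold Tch at n
    exact ⟨by grind, fun h => ⟨h.ne, by grind⟩⟩
  have y3 : ∀ a b, ¬ Tch k l a b → (y.Adj a b ↔ z.1.Adj a b) := by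
    intro a b n
    by_cases m : Tch u v a b
    · have n' : ¬ Tch k l b a := fun x => n (tch_symm _ _ _ _ x)
      simp only [y, SimpleGraph.fromRel_adj, Out, n, n', m, tch_symm _ _ _ _ m, z.1.adj_comm b]
      unfold Tch at n
      exact ⟨by grind, fun h => ⟨h.ne, by grind⟩⟩
    · rw [y2 a b m, ← h' a b n, h a b m]
  obtain ⟨⟨a1, a2⟩, a3, a4⟩ := cols hD h
  obtain ⟨⟨a5, a6⟩, a7, a8⟩ := rows hD h'
  unfold Od at ho
  refine ⟨⟨y, mem_Om.2 fun a => ?_⟩, fun a b n => (y3 a b n).symm, fun a b n => (y2 a b n).symm⟩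
  by_cases ha : a = u ∨ a = v
  · rw [← mem_Om.1 z.2 a]
    refine (deg_iff d6 fun b b1 b2 => y3 a b ?_).2 ?_
    · unfold Tch; grind
    · rw [y1 a k ha (Or.inl rfl), y1 a l ha (Or.inr rfl)]
      simp only [F, Two]
      rcases ha with rfl | rfl <;> grind
  · rw [← mem_Om.1 z'.2 a]
    refine (deg_iff d1 fun b b1 b2 => y2 a b (by unfold Tch; grind)).2 ?_
    rw [y.adj_comm a, y.adj_comm a, z'.1.adj_comm a, z'.1.adj_comm a]
    by_cases hb : a = k ∨ a = l
    · rw [y1 u a (Or.inl rfl) hb, y1 v a (Or.inr rfl) hb]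
      simp only [F, Two]
      rcases hb with rfl | rfl <;> grind
    · have n1 : ¬ Tch k l u a := by unfold Tch; grind
      have n2 : ¬ Tch k l v a := by unfold Tch; grind
      rw [y3 u a n1, y3 v a n2, ← h' u a n1, ← h' v a n2]
      have := col_inv d1 h (c := a) (by grind) (by grind)
      unfold Two at *; grind

end

end Crest.Agent.Sw
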