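import Crest.Agent.Sw.Four

/-! Row 299: the anticommutator of the heat-bath operators of two disjoint pairs. -/

set_option autoImplicit false
set_option linter.unusedSectionVars false
open Finset

namespace Crest.Agent.Sw

variable {V : Type} [Fintype V] [DecidableEq V] {d : V → ℕ}

/-- a fibre split by the availability of the switch -/
def rc (u v k l : V) (G G' : St d) : Prop :=
  off (Tch u v) G G' ∧ (Cen u v k l G.1 ↔ Cen u v k l G'.1)

lemma rc_equiv (u v k l : V) : Equivalence (rc (d := d) u v k l) :=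
  ⟨fun x => ⟨(off_equiv _).refl x, Iff.rfl⟩, fun h => ⟨(off_equiv _).symm h.1, h.2.symm⟩,
    fun h h' => ⟨(off_equiv _).trans h.1 h'.1, h.2.trans h'.2⟩⟩

open Classical in
/-- the cost term -/
noncomputable def Wt (u v k l : V) (φ : St d → ℝ) : ℝ :=
  ∑ G, if Cen u v k l G.1 then P (rc u v k l) φ G ^ 2 else 0

/-- the switch term -/
noncomputable def Sq (u v k l : V) (ψ : St d → ℝ) : ℝ := ∑ G, ((ψ G - ψ (swS u v k l G)) / 2) ^ 2

/-- heat-bath operator of a pair -/
noncomputable def hb (u v : V) : (St d → ℝ) →ₗ[ℝ] (St d → ℝ) := Hp (off (Tch u v))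

lemma out_symm (u v k l a b : V) (h : Out u v k l a b) : Out u v k l b a :=
  ⟨tch_symm _ _ _ _ h.1, fun x => h.2 (tch_symm _ _ _ _ x)⟩

section
variable {u v k l : V} (hD : Dis u v k l)
include hD

lemma Sq_eq (ψ : St d → ℝ) :
    Sq u v k l ψ = Hp (off (Blk u v k l)) ψ ⬝ᵥ Hp (off (Blk u v k l)) ψ :=
  sum_congr rfl fun G _ => by simp only [Hp_apply, Pi.sub_apply, P_blk hD]; ring

lemma comm_blk (f : St d → ℝ) : P (off (Blk u v k l)) (P (off (Out u v k l)) f) =
    P (off (Out u v k l)) (P (off (Blk u v k l)) f) :=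
  (comm_off (out_symm u v k l) (fun a b h m => h.2 ((blk_iff hD a b).1 m).2) f).symm

omit hD in
lemma comm_tch (u v k l : V) (f : St d → ℝ) : P (off (Tch u v)) (P (off (Out k l u v)) f) =
    P (off (Out k l u v)) (P (off (Tch u v)) f) :=
  comm_off (tch_symm u v) (fun _ _ h m => m.2 h) f

omit hD in
lemma comm_out (u v k l : V) (f : St d → ℝ) : P (off (Out u v k l)) (P (off (Out k l u v)) f) =
    P (off (Out k l u v)) (P (off (Out u v k l)) f) :=
  comm_off (out_symm u v k l) (fun _ _ h m => m.2 h.1) f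

lemma rc_of_out (G G' : St d) (h : off (Out u v k l) G G') : rc u v k l G G' :=
  ⟨off_mono (fun _ _ m => m.1) _ _ h, cen_of_blk hD (blk_of_out hD h)⟩

lemma rc_of_blk (G G' : St d) (h : off (Blk u v k l) G G') : rc u v k l G G' := by
  refine ⟨off_mono (fun a b m => ((blk_iff hD a b).1 m).1) _ _ h, ?_⟩
  rcases eq_or_of_off_blk hD h with rfl | rfl
  · rfl
  · rw [swS_val hD, cen_sw hD]

open Classical in
lemma cen_part (ψ ω : St d → ℝ) (hω : ω = P (off (Out u v k l)) (P (off (Out k l u v)) ψ)) :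
    (∑ G, if Cen u v k l G.1 then (P (off (Blk u v k l)) ω G - P (off (Tch u v)) ω G) ^ 2 else 0) ≤
      Wt u v k l (hb u v ψ) := by
  have eO := off_equiv (d := d) (Out u v k l)
  have eO' := off_equiv (d := d) (Out k l u v)
  have eT := off_equiv (d := d) (Tch u v)
  have eB := off_equiv (d := d) (Blk u v k l)
  have eC := rc_equiv (d := d) u v k l
  have a1 : ∀ G : St d, Cen u v k l G.1 → P (rc u v k l) (hb u v ω) G =
      P (off (Blk u v k l)) ω G - P (off (Tch u v)) ω G := fun G hC => by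
    rw [hb, Hp_apply, map_sub, P_P_of_le eC eT fun _ _ h => h.1, Pi.sub_apply,
      ← P_P_of_ge eB eC (rc_of_blk hD) ω]
    congr 1
    refine P_of_const eC fun y hy => ?_
    have b1 : ∀ x : St d, off (Out u v k l) x y →
        P (off (Blk u v k l)) ω y = P (off (Blk u v k l)) ω x := fun x hx => by
      rw [hω, comm_blk hD]; exact (P_congr eO _ hx).symm
    obtain ⟨⟨c1, c2⟩, c3, c4⟩ := cols hD hy.1
    have c5 := hy.2.1 hC
    obtain ⟨c6, c7, c8, c9⟩ := swS_adj hD hC
    unfold Cen at hC c5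
    by_cases h1 : G.1.Adj u k ↔ y.1.Adj u k
    · exact b1 G (off_out hD hy.1 h1 (by grind) (by grind) (by grind))
    · rw [P_congr eB ω (off_swS hD G)]
      exact b1 _ (off_out hD (eT.trans (eT.symm (rc_of_blk hD _ _ (off_swS hD G)).1) hy.1)
        (by grind) (by grind) (by grind) (by grind))
  have a2 : P (rc u v k l) (hb u v ω) =
      P (off (Out k l u v)) (P (rc u v k l) (hb u v ψ)) := by
    have b1 : ∀ f : St d → ℝ, P (rc u v k l) (P (off (Out k l u v)) f) =
        P (off (Out k l u v)) (P (rc u v k l) f) :=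
      comm_disj (tch_symm u v) (fun _ _ h m => m.2 h) (fun G => Cen u v k l G.1)
        fun G G' h => cen_of_blk hD fun a b m => h a b ((blk_iff hD a b).1 m).1
    rw [← b1, hb, Hp_apply, Hp_apply, hω, map_sub, map_sub, map_sub,
      P_P_of_ge eO eC (rc_of_out hD), P_P_of_ge eO eT (off_mono fun _ _ m => m.1), comm_tch]
  set g := P (rc u v k l) (hb u v ψ)
  have h := P_contr eO' fun G => if Cen u v k l G.1 then g G else 0
  refine le_trans (le_of_eq (sum_congr rfl fun G _ => ?_))
    (h.trans (le_of_eq (sum_congr rfl fun G _ => ?_)))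
  · have b1 : ∀ y ∈ cl (off (Out k l u v)) G, (Cen u v k l y.1 ↔ Cen u v k l G.1) := fun y hy => by
      rw [← cen_symm, ← cen_symm u v k l G.1]
      exact (rc_of_out hD.symm _ _ (mem_cl.1 hy)).2.symm
    split_ifs with hC
    · rw [← a1 G hC, a2, sq, P_apply, P_apply,
        sum_congr rfl fun y hy => if_pos ((b1 y hy).2 hC)]
    · rw [P_apply, sum_eq_zero fun y hy => if_neg fun x => hC ((b1 y hy).1 x)]; simp
  · beta_reduce; split_ifs <;> simp [sq, g]

lemma scalar_part (ψ ω : St d → ℝ) (hω : ω = P (off (Out u v k l)) (P (off (Out k l u v)) ψ)) :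
    2 * Sq u v k l ω - Wt u v k l (hb u v ψ) - Wt k l u v (hb k l ψ) ≤
      2 * (hb u v ω ⬝ᵥ hb k l ω) := by
  classical
  have eO := off_equiv (d := d) (Out u v k l)
  have eO' := off_equiv (d := d) (Out k l u v)
  have eT := off_equiv (d := d) (Tch u v)
  have eT' := off_equiv (d := d) (Tch k l)
  have hω' : ω = P (off (Out k l u v)) (P (off (Out u v k l)) ψ) := by rw [hω, comm_out]
  have h1 := cen_part hD ψ ω hω
  have h2 := cen_part hD.symm ψ ω hω'
  simp only [blk_symm u v k l, cen_symm u v k l, P_blk hD] at h1 h2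
  set α := P (off (Tch u v)) ω with hα
  set β := P (off (Tch k l)) ω with hβ
  have h3 := sum_nonneg_of_grid eT eT' (p := Od u v k l)
    (fun x y h => by obtain ⟨⟨c1, c2⟩, c3, c4⟩ := cols hD h; unfold Od; grind)
    (fun x y h => by obtain ⟨⟨c1, c2⟩, c3, c4⟩ := rows hD h; unfold Od; grind)
    (fun x y ho h h' => by
      obtain ⟨⟨c1, c2⟩, c3, c4⟩ := cols hD h
      obtain ⟨⟨c5, c6⟩, c7, c8⟩ := rows hD h'
      unfold Od at ho
      have := off_out hD h (by grind) (by grind) (by grind) (by grind)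
      refine Subtype.ext (SimpleGraph.ext (funext fun a => funext fun b => propext ?_))
      by_cases n : Tch k l a b
      exacts [this a b fun m => m.2 n, h' a b n])
    (fun x z z' => ex_odd hD) ω
  have h4 : hb u v ω ⬝ᵥ hb k l ω = (∑ x, if Od u v k l x then (ω x - α x) * (ω x - β x) else 0) +
      ∑ x : St d, if Cen u v k l x.1 then (ω x - α x) * (ω x - β x) else 0 := by
    rw [← sum_add_distrib]
    refine sum_congr rfl fun x _ => ?_
    change (ω x - α x) * (ω x - β x) = _
    by_cases c1 : Od u v k l x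
    · rw [if_pos c1, if_neg (by unfold Od at c1; unfold Cen; grind), add_zero]
    by_cases c2 : Cen u v k l x.1
    · rw [if_neg c1, if_pos c2, zero_add]
    rw [if_neg c1, if_neg c2, add_zero, mul_eq_zero, sub_eq_zero, sub_eq_zero]
    unfold Od at c1; unfold Cen at c2
    by_cases c3 : x.1.Adj u k ↔ x.1.Adj v k
    · refine Or.inl (P_of_const eT fun y hy => ?_).symm
      obtain ⟨⟨c4, c5⟩, c6, c7⟩ := cols hD hy
      rw [hω]
      exact (P_congr eO _ (off_out hD hy (by grind) (by grind) (by grind) (by grind))).symm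
    · refine Or.inr (P_of_const eT' fun y hy => ?_).symm
      obtain ⟨⟨c4, c5⟩, c6, c7⟩ := rows hD hy
      rw [hω']
      refine (P_congr eO' _ (off_out hD.symm hy ?_ ?_ ?_ ?_)).symm <;>
        rw [x.1.adj_comm, y.1.adj_comm] <;> grind
  have h5 : (∑ x : St d, if Cen u v k l x.1 then (ω x - α x) * (ω x - β x) else 0) =
      ∑ x : St d, if Cen u v k l x.1 then
        (ω (swS u v k l x) - α x) * (ω (swS u v k l x) - β x) else 0 := by
    refine (Equiv.sum_comp (Function.Involutive.toPerm _ (swS_swS hD)) _).symm.trans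
      (sum_congr rfl fun x _ => ?_)
    have c1 := rc_of_blk hD _ _ (off_swS hD x)
    have c2 := rc_of_blk hD.symm _ _ (blk_symm u v k l ▸ off_swS hD x)
    simp only [Function.Involutive.coe_toPerm, ← c1.2, hα, hβ, ← P_congr eT ω c1.1,
      ← P_congr eT' ω c2.1]
  have h6 : 2 * Sq u v k l ω - (∑ G : St d, if Cen u v k l G.1 then
        ((ω G + ω (swS u v k l G)) / 2 - α G) ^ 2 else 0) - (∑ G : St d, if Cen u v k l G.1 then
        ((ω G + ω (swS u v k l G)) / 2 - β G) ^ 2 else 0) ≤
      (∑ x : St d, if Cen u v k l x.1 then (ω x - α x) * (ω x - β x) else 0) +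
      ∑ x : St d, if Cen u v k l x.1 then
        (ω (swS u v k l x) - α x) * (ω (swS u v k l x) - β x) else 0 := by
    rw [Sq, mul_sum, ← sum_sub_distrib, ← sum_sub_distrib, ← sum_add_distrib]
    refine sum_le_sum fun x _ => ?_
    split_ifs with c
    · nlinarith [sq_nonneg (ω x + ω (swS u v k l x) - α x - β x)]
    · have : swS u v k l x = x := Subtype.ext (by rw [swS_val hD, sw_of_not c])
      rw [this]; simp
  linarith

theorem four (ψ : St d → ℝ) :
    2 * Sq u v k l ψ - Wt u v k l (hb u v ψ) - Wt k l u v (hb k l ψ) ≤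
      2 * (hb u v ψ ⬝ᵥ hb k l ψ) := by
  have eO := off_equiv (d := d) (Out u v k l)
  have eO' := off_equiv (d := d) (Out k l u v)
  have eT := off_equiv (d := d) (Tch u v)
  have eT' := off_equiv (d := d) (Tch k l)
  have eB := off_equiv (d := d) (Blk u v k l)
  have lT := off_mono (d := d) (X := Out u v k l) (Y := Tch u v) fun _ _ m => m.1
  have lT' := off_mono (d := d) (X := Out k l u v) (Y := Tch k l) fun _ _ m => m.1
  have cB : ∀ f : St d → ℝ, P (off (Blk u v k l)) (P (off (Out k l u v)) f) =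
      P (off (Out k l u v)) (P (off (Blk u v k l)) f) := blk_symm u v k l ▸ comm_blk hD.symm
  let R : (St d → ℝ) →ₗ[ℝ] (St d → ℝ) := P (off (Out u v k l)) ∘ₗ P (off (Out k l u v))
  have hR : ∀ f, R f = P (off (Out u v k l)) (P (off (Out k l u v)) f) := fun _ => rfl
  have hs : ∀ f g, R f ⬝ᵥ g = f ⬝ᵥ R g := fun f g => by
    rw [hR, hR, P_symm eO, P_symm eO', comm_out]
  have hi : ∀ f, R (R f) = R f := fun f => by
    rw [hR, hR, ← comm_out u v k l (P _ f), P_P eO, P_P eO']
  have c1 : ∀ f, hb u v (R f) = R (hb u v f) := fun f => by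
    rw [hb, Hp_apply, Hp_apply, map_sub, hR, hR, P_P_of_ge eO eT lT, comm_tch, comm_out u v k l (P _ f),
      P_P_of_le eO eT lT]
  have c2 : ∀ f, hb k l (R f) = R (hb k l f) := fun f => by
    rw [hb, Hp_apply, Hp_apply, map_sub, hR, hR, comm_tch, P_P_of_ge eO' eT' lT',
      P_P_of_le eO' eT' lT']
  have c3 : ∀ f, Hp (off (Blk u v k l)) (R f) = R (Hp (off (Blk u v k l)) f) := fun f => by
    rw [Hp_apply, Hp_apply, map_sub, hR, hR, comm_blk hD, cB]
  have h1 := scalar_part hD ψ (R ψ) rfl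
  rw [dot_split R _ _ hs hi c1 c2, Sq_eq hD, dot_split R _ _ hs hi c3 c3, ← Sq_eq hD]
  set χ := ψ - R ψ with hχ
  have h2 : R χ = 0 := by rw [hχ, map_sub, hi, sub_self]
  have h3 : P (off (Tch u v)) χ ⬝ᵥ P (off (Tch k l)) χ = 0 := by
    rw [← P_P_of_le eO' eT' lT', ← P_symm eO', ← comm_tch, ← P_P_of_ge eO eT lT, ← hR, h2,
      map_zero, zero_dotProduct]
  have h4 := Hp_contr eB (χ - P (off (Tch u v)) χ - P (off (Tch k l)) χ)
  have h5 : Hp (off (Blk u v k l)) (χ - P (off (Tch u v)) χ - P (off (Tch k l)) χ) =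
      Hp (off (Blk u v k l)) χ := by
    simp only [map_sub, Hp_apply,
      P_P_of_le eB eT (off_mono fun a b m => ((blk_iff hD a b).1 m).1),
      P_P_of_le eB eT' (off_mono fun a b m => ((blk_iff hD a b).1 m).2)]
    abel
  have h6 : (χ - P (off (Tch u v)) χ - P (off (Tch k l)) χ) ⬝ᵥ
      (χ - P (off (Tch u v)) χ - P (off (Tch k l)) χ) = hb u v χ ⬝ᵥ hb k l χ := by
    simp only [hb, Hp_apply, sub_dotProduct, dotProduct_sub, h3,
      dotProduct_comm (P (off (Tch k l)) χ) (P (off (Tch u v)) χ)]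
    rw [P_dot_P eT, P_dot_P eT', P_symm eT, P_symm eT']; ring
  rw [h5, h6] at h4
  linarith

end

end Crest.Agent.Sw
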