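import Crest.Agent.Sw.Four2

/-! Row 299: the fibre of a pair is a Johnson scheme. -/

set_option autoImplicit false
set_option linter.unusedSectionVars false
open Finset

namespace Crest.Agent.Sw

variable {V : Type} [Fintype V] [DecidableEq V] {d : V → ℕ}

open Classical in
/-- active columns of the pair `u, v` -/
noncomputable def act (u v : V) (G : St d) : Finset V :=
  univ.filter fun c => c ≠ u ∧ c ≠ v ∧ ¬ (G.1.Adj u c ↔ G.1.Adj v c)

lemma mem_act {u v c : V} {G : St d} :
    c ∈ act u v G ↔ c ≠ u ∧ c ≠ v ∧ ¬ (G.1.Adj u c ↔ G.1.Adj v c) := by simp [act]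

section
variable {u v : V} (huv : u ≠ v)
include huv

lemma adj_inv {G G' : St d} (h : off (Tch u v) G G') : G.1.Adj u v ↔ G'.1.Adj u v := by
  classical
  have e : ∀ G : St d, d u + d v = ∑ c ∈ (univ.erase u).erase v,
      ((if G.1.Adj u c then 1 else 0) + if G.1.Adj v c then 1 else 0) +
      2 * if G.1.Adj u v then 1 else 0 := fun G => by
    have e1 : ∀ a, d a = ∑ c ∈ (univ.erase u).erase v, (if G.1.Adj a c then 1 else 0) +
        (if G.1.Adj a v then 1 else 0) + if G.1.Adj a u then 1 else 0 := fun a => by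
      rw [sum_erase_add _ (fun c => if G.1.Adj a c then 1 else 0) (by simp [huv.symm]),
        sum_erase_add _ (fun c => if G.1.Adj a c then 1 else 0) (mem_univ u), ← card_filter,
        ← mem_Om.1 G.2 a, nb]
    rw [e1 u, e1 v, sum_add_distrib, G.1.adj_comm v u]
    simp only [SimpleGraph.irrefl, if_false]
    omega
  have e2 := (e G).symm.trans (e G')
  rw [sum_congr rfl (g := fun c => (if G'.1.Adj u c then 1 else 0) + if G'.1.Adj v c then 1 else 0)
    fun c hc => by
      simp only [mem_erase] at hc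
      obtain ⟨h1, h2⟩ := col_inv huv h hc.2.1 hc.1
      split_ifs <;> grind] at e2
  split_ifs at e2 <;> grind

lemma adj_of_not_act {G G' : St d} (h : off (Tch u v) G G') {c : V} (hc : c ∉ act u v G) :
    (G.1.Adj u c ↔ G'.1.Adj u c) ∧ (G.1.Adj v c ↔ G'.1.Adj v c) := by
  have h0 := adj_inv huv h
  by_cases h1 : c = u
  · rw [h1, G.1.adj_comm v, G'.1.adj_comm v]; simpa using h0
  by_cases h2 : c = v
  · rw [h2]; simpa using h0
  obtain ⟨h3, h4⟩ := col_inv huv h h1 h2
  rw [mem_act] at hc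
  grind

lemma act_adj {G G' : St d} (h : off (Tch u v) G G') {c : V} (hc : c ∈ act u v G) :
    G'.1.Adj v c ↔ ¬ G'.1.Adj u c := by
  rw [mem_act] at hc
  obtain ⟨h3, h4⟩ := col_inv huv h hc.1 hc.2.1
  grind

lemma pair_bij (G₀ : St d) : Set.BijOn (fun G : St d => nb G.1 u ∩ act u v G₀)
    (cl (off (Tch u v)) G₀) (powersetCard (nb G₀.1 u ∩ act u v G₀).card (act u v G₀)) := by
  set A := act u v G₀ with hA
  refine ⟨fun G hG => ?_, fun G hG G' hG' e => ?_, fun S hS => ?_⟩
  · have hG := mem_cl.1 hG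
    refine mem_coe.2 (mem_powersetCard.2 ⟨inter_subset_right, ?_⟩)
    have e1 := card_inter_add_card_sdiff (nb G.1 u) A
    have e2 := card_inter_add_card_sdiff (nb G₀.1 u) A
    have e3 : nb G.1 u \ A = nb G₀.1 u \ A := by
      ext c; simp only [mem_sdiff, mem_nb]
      exact and_congr_left fun n => (adj_of_not_act huv hG n).1.symm
    have := G.deg G₀ u
    rw [e3] at e1
    beta_reduce; omega
  · have hG := mem_cl.1 hG
    have hG' := mem_cl.1 hG'
    have key : ∀ c, (G.1.Adj u c ↔ G'.1.Adj u c) ∧ (G.1.Adj v c ↔ G'.1.Adj v c) := fun c => by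
      by_cases n : c ∈ A
      · have := Finset.ext_iff.1 e c
        simp only [mem_inter, mem_nb, n, and_true] at this
        rw [act_adj huv hG n, act_adj huv hG' n, this]; simp
      · have h1 := adj_of_not_act huv hG n
        have h2 := adj_of_not_act huv hG' n
        exact ⟨h1.1.symm.trans h2.1, h1.2.symm.trans h2.2⟩
    refine Subtype.ext (SimpleGraph.ext (funext fun a => funext fun b => propext ?_))
    by_cases n : Tch u v a b
    · rcases n with rfl | rfl | rfl | rfl
      exacts [(key b).1, (key b).2, by rw [G.1.adj_comm, G'.1.adj_comm]; exact (key a).1,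
        by rw [G.1.adj_comm, G'.1.adj_comm]; exact (key a).2]
    · exact (hG a b n).symm.trans (hG' a b n)
  · obtain ⟨hS, hk⟩ := mem_powersetCard.1 (mem_coe.1 hS)
    have hu : u ∉ A := by simp [hA, mem_act]
    have hv : v ∉ A := by simp [hA, mem_act]
    let y : SimpleGraph V := SimpleGraph.fromRel fun a b => (a = u ∧ b ∈ S) ∨
      (a = v ∧ b ∈ A ∧ b ∉ S) ∨
      (¬ ((a = u ∨ a = v) ∧ b ∈ A) ∧ ¬ ((b = u ∨ b = v) ∧ a ∈ A) ∧ G₀.1.Adj a b)
    have y1 : ∀ b ∈ A, (y.Adj u b ↔ b ∈ S) ∧ (y.Adj v b ↔ b ∉ S) := fun b hb => by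
      simp only [y, SimpleGraph.fromRel_adj]; grind
    have y2 : ∀ a b, ¬ ((a = u ∨ a = v) ∧ b ∈ A) → ¬ ((b = u ∨ b = v) ∧ a ∈ A) →
        (y.Adj a b ↔ G₀.1.Adj a b) := fun a b h1 h2 => by
      have := @hS a
      have := @hS b
      simp only [y, SimpleGraph.fromRel_adj, G₀.1.adj_comm b]
      exact ⟨by grind, fun h => ⟨h.ne, by grind⟩⟩
    have y3 : nb y u ∩ A = S := by
      ext c; simp only [mem_inter, mem_nb]
      exact ⟨fun h => (y1 c h.2).1.1 h.1, fun h => ⟨(y1 c (hS h)).1.2 h, hS h⟩⟩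
    have y4 : ∀ a, (a = u ∨ a = v) → nb y a \ A = nb G₀.1 a \ A := fun a ha => by
      ext c; simp only [mem_sdiff, mem_nb]
      exact and_congr_left fun n => y2 a c (by grind) (by grind)
    refine ⟨⟨y, mem_Om.2 fun a => ?_⟩, mem_coe.2 (mem_cl.2 fun a b n => ?_), y3⟩
    swap
    · exact (y2 a b (by unfold Tch at n; grind) (by unfold Tch at n; grind)).symm
    rw [← mem_Om.1 G₀.2 a]
    have e1 := card_inter_add_card_sdiff (nb y a) A
    have e2 := card_inter_add_card_sdiff (nb G₀.1 a) A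
    by_cases h1 : a = u
    · rw [y4 a (Or.inl h1)] at e1
      subst h1
      rw [y3] at e1; omega
    by_cases h2 : a = v
    · rw [y4 a (Or.inr h2)] at e1
      subst h2
      have e3 : nb y a ∩ A = A \ S := by
        ext c; simp only [mem_inter, mem_nb, mem_sdiff]
        rw [and_comm]; exact and_congr_right fun n => (y1 c n).2
      have e4 : nb G₀.1 a ∩ A = A \ (nb G₀.1 u ∩ A) := by
        ext c; simp only [mem_inter, mem_nb, mem_sdiff]
        rw [and_comm]
        exact and_congr_right fun n => by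
          rw [act_adj huv ((off_equiv _).refl G₀) n]; simp [n]
      rw [e3, card_sdiff_of_subset hS] at e1
      rw [e4, card_sdiff_of_subset inter_subset_right] at e2
      omega
    refine (deg_iff huv fun b h3 h4 => y2 a b (by grind) (by grind)).2 ?_
    rw [y.adj_comm a, y.adj_comm a, G₀.1.adj_comm a, G₀.1.adj_comm a]
    by_cases n : a ∈ A
    · rw [(y1 a n).1, (y1 a n).2, act_adj huv ((off_equiv _).refl G₀) n]
      unfold Two; grind
    · rw [y2 u a (by grind) (by grind), y2 v a (by grind) (by grind)]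
      exact ⟨Iff.rfl, Iff.rfl⟩

lemma fibre (hJ : JStmt) (φ : St d → ℝ) (G₀ : St d)
    (h0 : ∑ G ∈ cl (off (Tch u v)) G₀, φ G = 0) :
    open Classical in
    (8 * ∑ G ∈ cl (off (Tch u v)) G₀, φ G ^ 2 ≤ ∑ G ∈ cl (off (Tch u v)) G₀, ∑ k, ∑ l,
      if Dis u v k l then (φ G - φ (swS u v k l G)) ^ 2 else 0) ∧
    4 * (∑ G ∈ cl (off (Tch u v)) G₀, ∑ k, ∑ l, if Dis u v k l then
      (if Cen u v k l G.1 then P (rc u v k l) φ G ^ 2 else 0) else 0) ≤
      ∑ G ∈ cl (off (Tch u v)) G₀, ∑ k, ∑ l,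
        if Dis u v k l then (φ G - φ (swS u v k l G)) ^ 2 else 0 := by
  classical
  have : Nonempty (St d) := ⟨G₀⟩
  have hb := pair_bij huv G₀
  set A := act u v G₀ with hA
  set e : St d → Finset V := fun G => nb G.1 u ∩ A with he
  set T := cl (off (Tch u v)) G₀ with hT
  set F := powersetCard (nb G₀.1 u ∩ A).card A with hF
  set g : Finset V → ℝ := fun S => φ (Function.invFunOn e T S) with hg
  have g1 : ∀ G ∈ T, φ G = g (e G) := fun G hG => by
    rw [hg]; simp only; rw [hb.invOn_invFunOn.1 hG]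
  have tr : ∀ (f : St d → ℝ) (f' : Finset V → ℝ), (∀ G ∈ T, f G = f' (e G)) →
      ∑ G ∈ T, f G = ∑ S ∈ F, f' S := fun f f' h => sum_nbij e hb.1 hb.2.1 hb.2.2 h
  have cen : ∀ k l, ∀ G ∈ T, (Dis u v k l ∧ Cen u v k l G.1 ↔
      k ∈ A ∧ l ∈ A ∧ ¬ (k ∈ e G ↔ l ∈ e G)) := fun k l G hG => by
    have hG := mem_cl.1 hG
    have a1 := @adj_of_not_act _ _ _ _ _ _ huv _ _ hG k
    have a2 := @adj_of_not_act _ _ _ _ _ _ huv _ _ hG l
    have a3 := @act_adj _ _ _ _ _ _ huv _ _ hG k
    have a4 := @act_adj _ _ _ _ _ _ huv _ _ hG l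
    have a5 := @mem_act _ _ _ _ u v k G₀
    have a6 := @mem_act _ _ _ _ u v l G₀
    simp only [he, mem_inter, mem_nb, hA, Dis, Cen]
    grind
  have dbl : ∀ f : V → V → ℝ, (∀ k l, ¬ (k ∈ A ∧ l ∈ A) → f k l = 0) →
      ∑ k, ∑ l, f k l = ∑ k ∈ A, ∑ l ∈ A, f k l := fun f h => by
    rw [← sum_subset (subset_univ A) fun k _ n => sum_eq_zero fun l _ => h k l fun x => n x.1]
    exact sum_congr rfl fun k _ => (sum_subset (subset_univ A) fun l _ n => h k l fun x => n x.2).symm
  have hsw : ∀ k l, ∀ G : St d, ¬ (Dis u v k l ∧ Cen u v k l G.1) → swS u v k l G = G :=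
    fun k l G h => by
      by_cases hD : Dis u v k l
      · exact Subtype.ext (by rw [swS_val hD, sw_of_not fun c => h ⟨hD, c⟩])
      · rw [swS, dif_neg hD]
  have D : (∑ G ∈ T, ∑ k, ∑ l, if Dis u v k l then (φ G - φ (swS u v k l G)) ^ 2 else 0) =
      ∑ a ∈ A, ∑ b ∈ A, ∑ S ∈ F, (g S - g (S.image (Equiv.swap a b))) ^ 2 := by
    simp only [sum_comm (s := A) (t := F)]
    refine tr _ _ fun G hG => ?_
    rw [dbl _ fun k l n => by rw [hsw k l G fun x => n (by rw [cen k l G hG] at x; tauto)]; simp]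
    refine sum_congr rfl fun k hk => sum_congr rfl fun l hl => ?_
    by_cases c : Dis u v k l ∧ Cen u v k l G.1
    · have hG' : swS u v k l G ∈ T := mem_cl.2 ((off_equiv _).trans (mem_cl.1 hG)
        (rc_of_blk c.1 _ _ (off_swS c.1 G)).1)
      rw [if_pos c.1, g1 G hG, g1 _ hG']
      congr 3
      ext x
      obtain ⟨b1, b2, -, -⟩ := swS_adj c.1 c.2
      have b3 := c.2.2.2
      have b4 : x ≠ k → x ≠ l → ((swS u v k l G).1.Adj u x ↔ G.1.Adj u x) := fun h1 h2 =>
        (off_swS c.1 G u x (by have := c.1; unfold Blk; unfold Dis at this; grind)).symm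
      rw [← Equiv.coe_toEmbedding, ← map_eq_image, mem_map_equiv, Equiv.symm_swap,
        Equiv.swap_apply_def]
      simp only [he, mem_inter, mem_nb]
      grind
    · have : (e G).image (Equiv.swap k l) = e G := by
        ext x
        rw [cen k l G hG] at c
        rw [← Equiv.coe_toEmbedding, ← map_eq_image, mem_map_equiv, Equiv.symm_swap,
          Equiv.swap_apply_def]
        grind
      rw [this, hsw k l G c]; simp
  have W : (∑ G ∈ T, ∑ k, ∑ l, if Dis u v k l then
      (if Cen u v k l G.1 then P (rc u v k l) φ G ^ 2 else 0) else 0) =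
      ∑ a ∈ A, ∑ b ∈ A, (∑ S ∈ F with ¬ (a ∈ S ↔ b ∈ S), g S) ^ 2 /
        ((F.filter fun S => ¬ (a ∈ S ↔ b ∈ S)).card : ℝ) := by
    rw [sum_comm]
    simp only [sum_comm (s := T), ← ite_and]
    rw [dbl _ fun k l n => sum_eq_zero fun G hG => if_neg fun x => n (by
      rw [cen k l G hG] at x; tauto)]
    refine sum_congr rfl fun k hk => sum_congr rfl fun l hl => ?_
    set C := T.filter fun G => Dis u v k l ∧ Cen u v k l G.1 with hC
    have t1 : ∀ (f : St d → ℝ) (f' : Finset V → ℝ), (∀ G ∈ T, f G = f' (e G)) →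
        ∑ G ∈ C, f G = ∑ S ∈ F with ¬ (k ∈ S ↔ l ∈ S), f' S := fun f f' h => by
      rw [hC, sum_filter, sum_filter]
      exact tr _ _ fun G hG => by simp only [cen k l G hG, hk, hl, true_and, h G hG]
    have t2 := t1 (fun _ => 1) (fun _ => 1) fun _ _ => rfl
    simp only [sum_const, nsmul_eq_mul, mul_one] at t2
    rw [← sum_filter, ← hC, ← t1 φ g g1, ← t2,
      sum_congr rfl (g := fun _ => ((∑ G ∈ C, φ G) / C.card) ^ 2) fun G hG => by
        obtain ⟨h1, h2⟩ := mem_filter.1 hG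
        have : cl (rc u v k l) G = C := by
          ext y; simp only [hC, mem_filter, hT, mem_cl, rc, h2.1, h2.2, true_iff, true_and]
          exact and_congr_left fun _ => ⟨(off_equiv _).trans (mem_cl.1 h1),
            (off_equiv _).trans ((off_equiv _).symm (mem_cl.1 h1))⟩
        rw [P_apply, this], sum_const, nsmul_eq_mul]
    by_cases z : (C.card : ℝ) = 0
    · simp [z]
    · field_simp
  have h := hJ V A _ g ((tr φ g g1).symm.trans h0)
  rw [D, W, tr (fun G => φ G ^ 2) (fun S => g S ^ 2) fun G hG => by rw [g1 G hG]]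
  exact h

theorem pair (hJ : JStmt) (ψ : St d → ℝ) :
    (hb u v ψ ⬝ᵥ hb u v ψ ≤ (∑ k, ∑ l, if Dis u v k l then Sq u v k l ψ else 0) / 2) ∧
    (∑ k, ∑ l, if Dis u v k l then Wt u v k l (hb u v ψ) else 0) ≤
      ∑ k, ∑ l, if Dis u v k l then Sq u v k l ψ else 0 := by
  classical
  have eT := off_equiv (d := d) (Tch u v)
  set φ := hb u v ψ with hφ
  have h := fun G₀ => fibre huv hJ φ G₀ (by
    simp only [hφ, hb, Hp_apply, Pi.sub_apply, sum_sub_distrib]
    rw [sum_cl_P eT eT fun _ _ h => h, sub_self])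
  have e1 : (∑ k, ∑ l, if Dis u v k l then Sq u v k l ψ else 0) = (∑ G, ∑ k, ∑ l,
      if Dis u v k l then (φ G - φ (swS u v k l G)) ^ 2 else 0) / 4 := by
    rw [sum_comm (β := ℝ) (s := (univ : Finset (St d)))]
    simp only [sum_comm (s := (univ : Finset (St d))), sum_div]
    refine sum_congr rfl fun k _ => sum_congr rfl fun l _ => ?_
    split_ifs with hD
    · refine sum_congr rfl fun G _ => ?_
      simp only [hφ, hb, Hp_apply, Pi.sub_apply]
      rw [P_congr eT ψ (rc_of_blk hD _ _ (off_swS hD G)).1]; ring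
    · simp
  have e2 : (∑ k, ∑ l, if Dis u v k l then Wt u v k l φ else 0) = ∑ G : St d, ∑ k, ∑ l,
      if Dis u v k l then (if Cen u v k l G.1 then P (rc u v k l) φ G ^ 2 else 0) else 0 := by
    rw [sum_comm (β := ℝ) (s := (univ : Finset (St d)))]
    simp only [sum_comm (s := (univ : Finset (St d)))]
    refine sum_congr rfl fun k _ => sum_congr rfl fun l _ => ?_
    split_ifs with hD
    · rfl
    · simp
  have h1 := sum_nonneg_of_cl eT (f := fun G => (∑ k, ∑ l,
      if Dis u v k l then (φ G - φ (swS u v k l G)) ^ 2 else 0) - 8 * φ G ^ 2) fun G => by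
    rw [sum_sub_distrib, ← mul_sum]; linarith [(h G).1]
  have h2 := sum_nonneg_of_cl eT (f := fun G => (∑ k, ∑ l,
      if Dis u v k l then (φ G - φ (swS u v k l G)) ^ 2 else 0) - 4 * ∑ k, ∑ l,
      if Dis u v k l then (if Cen u v k l G.1 then P (rc u v k l) φ G ^ 2 else 0) else 0) fun G => by
    rw [sum_sub_distrib, ← mul_sum]; linarith [(h G).2]
  rw [sum_sub_distrib, ← mul_sum] at h1 h2
  rw [e1, e2]
  simp only [dotProduct, ← sq]
  constructor <;> linarith

end

end Crest.Agent.Sw
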