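import Crest.Agent.Sw.Defs

/-! Row 299, part T: the scalar part (three statistics with constant sum and monotone likelihood
ratios). -/

set_option autoImplicit false
open Finset

namespace Crest.Agent.Sw.TA

/-- the quadratic form `2 ∑ vᵢ² - (∑ vᵢ)²` -/
def Q (v : Fin 3 → ℝ) : ℝ := 2 * ∑ i, v i ^ 2 - (∑ i, v i) ^ 2

section
variable {α : Type} (F : Finset α) (y : α → Fin 3 → ℕ) (q : ℕ)

/-- joint counts -/
def N (i k : Fin 3) (r s : ℕ) : ℝ := (#{x ∈ F | y x i = r ∧ y x k = s} : ℕ)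

/-- conditional mean given `y · i = r` -/
noncomputable def E (i : Fin 3) (u : α → ℝ) (r : ℕ) : ℝ :=
  (∑ x ∈ F with y x i = r, u x) / (#{x ∈ F | y x i = r} : ℕ)

/-- the operator `(T f)_i = ∑_{k ≠ i} E[f_k | y_i]` -/
noncomputable def T (f : Fin 3 → ℕ → ℝ) (i : Fin 3) (r : ℕ) : ℝ :=
  ∑ k ∈ univ.erase i, E F y i (fun x => f k (y x k)) r

/-- inner product -/
def ip (f g : Fin 3 → ℕ → ℝ) : ℝ := ∑ x ∈ F, ∑ i, f i (y x i) * g i (y x i)

lemma cond (i : Fin 3) (u : α → ℝ) (g : ℕ → ℝ) :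
    ∑ x ∈ F, E F y i u (y x i) * g (y x i) = ∑ x ∈ F, u x * g (y x i) := by
  classical
  have hm : ∀ x ∈ F, y x i ∈ F.image fun x => y x i := fun x hx => mem_image_of_mem _ hx
  rw [← sum_fiberwise_of_maps_to hm, ← sum_fiberwise_of_maps_to hm (fun x => u x * g (y x i))]
  refine sum_congr rfl fun r hr => ?_
  obtain ⟨x0, hx0, rfl⟩ := mem_image.1 hr
  have hn : ((#{x ∈ F | y x i = y x0 i} : ℕ) : ℝ) ≠ 0 :=
    Nat.cast_ne_zero.2 (card_ne_zero.2 ⟨x0, mem_filter.2 ⟨hx0, rfl⟩⟩)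
  rw [sum_congr rfl (g := fun _ => E F y i u (y x0 i) * g (y x0 i))
      (fun x hx => by rw [(mem_filter.1 hx).2]),
    sum_congr rfl (f := fun x => u x * g (y x i)) (g := fun x => u x * g (y x0 i))
      (fun x hx => by rw [(mem_filter.1 hx).2]), sum_const, ← sum_mul, nsmul_eq_mul, E]
  field_simp

lemma ip_T (f g : Fin 3 → ℕ → ℝ) : ip F y (T F y f) g =
    ∑ x ∈ F, ((∑ i, f i (y x i)) * (∑ i, g i (y x i)) - ∑ i, f i (y x i) * g i (y x i)) := by
  have : ip F y (T F y f) g = ∑ i, ∑ k ∈ univ.erase i, ∑ x ∈ F, f k (y x k) * g i (y x i) := by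
    rw [ip, sum_comm]
    refine sum_congr rfl fun i _ => ?_
    simp only [T, sum_mul]
    rw [sum_comm]
    exact sum_congr rfl fun k _ => cond F y i _ _
  rw [this]
  simp only [sum_erase_eq_sub (mem_univ _), Fin.sum_univ_three, ← sum_add_distrib,
    ← sum_sub_distrib]
  exact sum_congr rfl fun x _ => by ring

lemma ip_symm (f g : Fin 3 → ℕ → ℝ) : ip F y (T F y f) g = ip F y (T F y g) f := by
  rw [ip_T, ip_T]
  exact sum_congr rfl fun x _ => by simp only [mul_comm]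

lemma ip_le (f g : Fin 3 → ℕ → ℝ) : 2 * ip F y f g ≤ ip F y f f + ip F y g g := by
  simp only [ip, mul_sum, ← sum_add_distrib]
  exact sum_le_sum fun x _ => sum_le_sum fun i _ => by
    nlinarith [sq_nonneg (f i (y x i) - g i (y x i))]

lemma T_mean (f : Fin 3 → ℕ → ℝ) (h : ∀ i, ∑ x ∈ F, f i (y x i) = 0) (i : Fin 3) :
    ∑ x ∈ F, T F y f i (y x i) = 0 := by
  simp only [T]
  rw [sum_comm]
  refine sum_eq_zero fun k _ => ?_
  have := cond F y i (fun x => f k (y x k)) fun _ => 1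
  simp only [mul_one] at this
  rw [this, h]

/-- Lipschitz bound on attained values -/
def Lip (L : ℝ) (f : Fin 3 → ℕ → ℝ) : Prop :=
  ∀ i, ∀ x ∈ F, ∀ x' ∈ F, y x i ≤ y x' i →
    |f i (y x i) - f i (y x' i)| ≤ L * ((y x' i : ℝ) - y x i)

variable (hq : ∀ x ∈ F, ∑ i, y x i = q)
  (hM : ∀ i k, i ≠ k → ∀ r r' s s', r < r' → s < s' →
    N F y i k r s * N F y i k r' s' ≤ N F y i k r s' * N F y i k r' s)

include hq in
lemma y_le {x : α} (hx : x ∈ F) (k : Fin 3) : y x k ≤ q :=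
  hq x hx ▸ single_le_sum (f := y x) (fun _ _ => Nat.zero_le _) (mem_univ k)

include hq in
lemma sum_N (i k : Fin 3) (r : ℕ) (ψ : ℕ → ℝ) :
    ∑ x ∈ F with y x i = r, ψ (y x k) = ∑ s ∈ range (q + 1), N F y i k r s * ψ s := by
  rw [← sum_fiberwise_of_maps_to' (t := range (q + 1)) (g := fun x => y x k)
    (fun x hx => mem_range.2 (Nat.lt_succ_of_le (y_le F y q hq (mem_filter.1 hx).1 k)))]
  refine sum_congr rfl fun s _ => ?_
  rw [sum_const, nsmul_eq_mul, filter_filter, N]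

include hq hM in
lemma mono (i k : Fin 3) (hik : i ≠ k) (ψ : ℕ → ℝ)
    (hψ : ∀ x ∈ F, ∀ x' ∈ F, y x k ≤ y x' k → ψ (y x k) ≤ ψ (y x' k))
    {x x' : α} (hx : x ∈ F) (hx' : x' ∈ F) (h : y x i < y x' i) :
    E F y i (fun z => ψ (y z k)) (y x' i) ≤ E F y i (fun z => ψ (y z k)) (y x i) := by
  have hn : ∀ z ∈ F, (0 : ℝ) < (#{x ∈ F | y x i = y z i} : ℕ) := fun z hz =>
    Nat.cast_pos.2 (card_pos.2 ⟨z, mem_filter.2 ⟨hz, rfl⟩⟩)
  have hc : ∀ r, ((#{x ∈ F | y x i = r} : ℕ) : ℝ) = ∑ s ∈ range (q + 1), N F y i k r s := by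
    intro r
    simpa using sum_N F y q hq i k r fun _ => 1
  rw [E, E, div_le_div_iff₀ (hn _ hx') (hn _ hx), sum_N F y q hq, sum_N F y q hq, hc, hc]
  set a := N F y i k (y x i)
  set b := N F y i k (y x' i)
  have h0 : ∀ s, (¬ ∃ z ∈ F, y z k = s) → a s = 0 ∧ b s = 0 := by
    intro s hs
    constructor <;>
    · simp only [a, b, N, Nat.cast_eq_zero, card_eq_zero, filter_eq_empty_iff]
      exact fun z hz hz' => hs ⟨z, hz, hz'.2⟩
  have key : ∀ s s', s < s' → 0 ≤ (ψ s' - ψ s) * (a s' * b s - a s * b s') := by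
    intro s s' hs
    by_cases h1 : ∃ z ∈ F, y z k = s
    · by_cases h2 : ∃ z ∈ F, y z k = s'
      · obtain ⟨z, hz, rfl⟩ := h1
        obtain ⟨z', hz', rfl⟩ := h2
        exact mul_nonneg (sub_nonneg.2 (hψ z hz z' hz' hs.le))
          (sub_nonneg.2 (hM i k hik _ _ _ _ h hs))
      · simp [h0 s' h2]
    · simp [h0 s h1]
  have key' : ∀ s s', 0 ≤ (ψ s' - ψ s) * (a s' * b s - a s * b s') := by
    intro s s'
    rcases lt_trichotomy s s' with hs | rfl | hs
    · exact key s s' hs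
    · simp
    · have := key s' s hs
      linarith
  have := sum_nonneg (s := range (q + 1)) fun s _ =>
    sum_nonneg (s := range (q + 1)) fun s' _ => key' s s'
  have e : ∑ s ∈ range (q + 1), ∑ s' ∈ range (q + 1), (ψ s' - ψ s) * (a s' * b s - a s * b s') =
      (∑ s ∈ range (q + 1), b s) * (∑ s ∈ range (q + 1), a s * ψ s) -
      (∑ s ∈ range (q + 1), a s) * (∑ s ∈ range (q + 1), b s * ψ s) -
      (∑ s ∈ range (q + 1), b s * ψ s) * (∑ s ∈ range (q + 1), a s) +
      (∑ s ∈ range (q + 1), a s * ψ s) * (∑ s ∈ range (q + 1), b s) := by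
    simp only [sum_mul_sum, ← sum_add_distrib, ← sum_sub_distrib]
    exact sum_congr rfl fun s _ => sum_congr rfl fun s' _ => by ring
  rw [e] at this
  linarith

lemma E_add (i : Fin 3) (u v : α → ℝ) (c : ℝ) (r : ℕ) :
    E F y i (fun x => c * u x + v x) r = c * E F y i u r + E F y i v r := by
  simp only [E, sum_add_distrib, ← mul_sum]
  ring

lemma E_sub (i : Fin 3) (u v : α → ℝ) (c : ℝ) (r : ℕ) :
    E F y i (fun x => c * u x - v x) r = c * E F y i u r - E F y i v r := by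
  simp only [E, sum_sub_distrib, ← mul_sum]
  ring

include hq in
lemma E_y (i : Fin 3) {x : α} (hx : x ∈ F) :
    ∑ k ∈ univ.erase i, E F y i (fun z => (y z k : ℝ)) (y x i) = q - y x i := by
  have hn : ((#{z ∈ F | y z i = y x i} : ℕ) : ℝ) ≠ 0 :=
    Nat.cast_ne_zero.2 (card_ne_zero.2 ⟨x, mem_filter.2 ⟨hx, rfl⟩⟩)
  simp only [E]
  rw [← sum_div, sum_comm, div_eq_iff hn, mul_comm, ← nsmul_eq_mul, ← sum_const]
  refine sum_congr rfl fun z hz => ?_
  rw [sum_erase_eq_sub (mem_univ _), ← (mem_filter.1 hz).2, ← hq z (mem_filter.1 hz).1]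
  push_cast
  rfl

include hq hM in
lemma T_lip (L : ℝ) (f : Fin 3 → ℕ → ℝ) (h : Lip F y L f) : Lip F y L (T F y f) := by
  intro i x hx x' hx' hle
  rcases hle.eq_or_lt with he | hlt
  · simp [he]
  have e : L * ((y x' i : ℝ) - y x i) = ∑ k ∈ univ.erase i,
      L * (E F y i (fun z => (y z k : ℝ)) (y x i) - E F y i (fun z => (y z k : ℝ)) (y x' i)) := by
    rw [← mul_sum, sum_sub_distrib, E_y F y q hq i hx, E_y F y q hq i hx']
    ring
  rw [e, T, T, ← sum_sub_distrib]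
  refine (abs_sum_le_sum_abs _ _).trans (sum_le_sum fun k hk => ?_)
  have hik : i ≠ k := (ne_of_mem_erase hk).symm
  have h1 := mono F y q hq hM i k hik (fun s => L * s + f k s) (fun z hz z' hz' hl => by
    have := (abs_le.1 (h k z hz z' hz' hl)).2
    linarith) hx hx' hlt
  have h2 := mono F y q hq hM i k hik (fun s => L * s - f k s) (fun z hz z' hz' hl => by
    have := (abs_le.1 (h k z hz z' hz' hl)).1
    linarith) hx hx' hlt
  rw [E_add, E_add] at h1
  rw [E_sub, E_sub] at h2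
  rw [abs_le]
  constructor <;> linarith

include hq in
lemma bound (L : ℝ) (hL : 0 ≤ L) (f : Fin 3 → ℕ → ℝ) (h : Lip F y L f)
    (h0 : ∀ i, ∑ x ∈ F, f i (y x i) = 0) : ip F y f f ≤ #F * (3 * (L * q) ^ 2) := by
  have h1 : ∀ i, ∀ x ∈ F, ∀ x' ∈ F, |f i (y x i) - f i (y x' i)| ≤ L * q := by
    intro i x hx x' hx'
    have a1 : (y x i : ℝ) ≤ q := Nat.cast_le.2 (y_le F y q hq hx i)
    have a2 : (y x' i : ℝ) ≤ q := Nat.cast_le.2 (y_le F y q hq hx' i)
    have a3 : (0 : ℝ) ≤ y x i := Nat.cast_nonneg _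
    have a4 : (0 : ℝ) ≤ y x' i := Nat.cast_nonneg _
    rcases le_total (y x i) (y x' i) with hl | hl
    · exact (h i x hx x' hx' hl).trans (mul_le_mul_of_nonneg_left (by linarith) hL)
    · rw [abs_sub_comm]
      exact (h i x' hx' x hx hl).trans (mul_le_mul_of_nonneg_left (by linarith) hL)
  have h2 : ∀ i, ∀ x ∈ F, |f i (y x i)| ≤ L * q := by
    intro i x hx
    have hF : (0 : ℝ) < #F := Nat.cast_pos.2 (card_pos.2 ⟨x, hx⟩)
    have e : #F * f i (y x i) = ∑ x' ∈ F, (f i (y x i) - f i (y x' i)) := by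
      rw [sum_sub_distrib, h0, sum_const, nsmul_eq_mul, sub_zero]
    have := (abs_sum_le_sum_abs _ _).trans (sum_le_sum fun x' hx' => h1 i x hx x' hx')
    rw [← e, sum_const, nsmul_eq_mul, abs_mul, abs_of_pos hF] at this
    exact le_of_mul_le_mul_left this hF
  rw [ip, ← nsmul_eq_mul, ← sum_const]
  refine sum_le_sum fun x hx => ?_
  have h3 : ∀ i, f i (y x i) * f i (y x i) ≤ (L * q) ^ 2 := fun i => by
    rw [← sq, ← sq_abs]
    exact pow_le_pow_left₀ (abs_nonneg _) (h2 i x hx) 2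
  rw [Fin.sum_univ_three]
  linarith [h3 0, h3 1, h3 2]

include hq hM in
lemma scalar_nat (f : Fin 3 → ℕ → ℝ) (h0 : ∀ i, ∑ x ∈ F, f i (y x i) = 0) :
    0 ≤ ∑ x ∈ F, Q fun i => f i (y x i) := by
  obtain ⟨L, hL, hf⟩ : ∃ L, 0 ≤ L ∧ Lip F y L f := by
    refine ⟨∑ i, ∑ x ∈ F, ∑ x' ∈ F, |f i (y x i) - f i (y x' i)|, by positivity, ?_⟩
    intro i x hx x' hx' hle
    rcases hle.eq_or_lt with he | hlt
    · simp [he]
    have a1 : (1 : ℝ) ≤ (y x' i : ℝ) - y x i := by
      have : ((y x i + 1 : ℕ) : ℝ) ≤ y x' i := Nat.cast_le.2 hlt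
      push_cast at this
      linarith
    refine le_trans ?_ (le_mul_of_one_le_right (by positivity) a1)
    refine le_trans ?_ (single_le_sum (f := fun i => ∑ x ∈ F, ∑ x' ∈ F,
      |f i (y x i) - f i (y x' i)|) (fun _ _ => by positivity) (mem_univ i))
    refine le_trans ?_ (single_le_sum (f := fun x => ∑ x' ∈ F,
      |f i (y x i) - f i (y x' i)|) (fun _ _ => by positivity) hx)
    exact single_le_sum (f := fun x' => |f i (y x i) - f i (y x' i)|) (fun _ _ => by positivity) hx'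
  let u : ℕ → Fin 3 → ℕ → ℝ := fun n => (T F y)^[n] f
  have hu : ∀ n, u (n + 1) = T F y (u n) := fun n => Function.iterate_succ_apply' _ _ _
  have h1 : ∀ n, Lip F y L (u n) ∧ ∀ i, ∑ x ∈ F, u n i (y x i) = 0 := by
    intro n
    induction n with
    | zero => exact ⟨hf, h0⟩
    | succ n ih => rw [hu]; exact ⟨T_lip F y q hq hM L _ ih.1, T_mean F y _ ih.2⟩
  let a : ℕ → ℝ := fun n => ip F y (u n) (u n)
  have h2 : ∀ n, 2 * a (n + 1) ≤ a (n + 1 + 1) + a n := by
    intro n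
    have : a (n + 1) = ip F y (u (n + 1 + 1)) (u n) := by
      simp only [a]
      rw [hu (n + 1), ip_symm, ← hu]
    rw [this]
    exact ip_le F y _ _
  have h3 : ∀ n : ℕ, a 1 - a 0 ≤ a (n + 1) - a n ∧ n * (a 1 - a 0) ≤ a n - a 0 := by
    intro n
    induction n with
    | zero => simp
    | succ n ih => push_cast; constructor <;> linarith [h2 n, ih.1, ih.2]
  have h4 : a 1 ≤ a 0 := by
    by_contra hc
    obtain ⟨n, hn⟩ := exists_nat_gt ((#F * (3 * (L * q) ^ 2) - a 0) / (a 1 - a 0))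
    rw [div_lt_iff₀ (by linarith)] at hn
    have := bound F y q hq L hL _ (h1 n).1 (h1 n).2
    linarith [(h3 n).2]
  have h5 := ip_le F y (T F y f) f
  have h6 : a 1 = ip F y (T F y f) (T F y f) := rfl
  have h7 : a 0 = ip F y f f := rfl
  have h8 : ∑ x ∈ F, Q (fun i => f i (y x i)) = ip F y f f - ip F y (T F y f) f := by
    rw [ip_T, ip, ← sum_sub_distrib]
    exact sum_congr rfl fun x _ => by simp only [Q, Fin.sum_univ_three]; ring
  linarith

include hq hM in
theorem scalar (G : α → Fin 3 → ℝ) (hG : ∀ i, ∀ x ∈ F, ∀ x' ∈ F, y x i = y x' i → G x i = G x' i)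
    (h0 : ∀ i, ∑ x ∈ F, G x i = 0) : 0 ≤ ∑ x ∈ F, Q (G x) := by
  classical
  let f : Fin 3 → ℕ → ℝ := fun i r => if h : ∃ x ∈ F, y x i = r then G h.choose i else 0
  have hf : ∀ x ∈ F, ∀ i, f i (y x i) = G x i := by
    intro x hx i
    have h : ∃ z ∈ F, y z i = y x i := ⟨x, hx, rfl⟩
    simp only [f, dif_pos h]
    exact hG i _ h.choose_spec.1 x hx h.choose_spec.2
  have := scalar_nat F y q hq hM f fun i => by
    rw [← h0 i]; exact sum_congr rfl fun x hx => hf x hx i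
  rwa [sum_congr rfl (g := fun x => Q (G x)) fun x hx => by
    congr 1; funext i; exact hf x hx i] at this

end

/-- monotone likelihood ratios from a product formula with log-concave factors -/
lemma mlr {α : Type} (F : Finset α) (y : α → Fin 3 → ℕ) (q : ℕ) (hq : ∀ x ∈ F, ∑ i, y x i = q)
    (C : ℝ) (w : Fin 3 → ℕ → ℝ) (hw : ∀ i s, 0 ≤ w i s)
    (hl : ∀ i u v d, u ≤ v → w i u * w i (v + d) ≤ w i (u + d) * w i v)
    (hc : ∀ b : Fin 3 → ℕ, ∑ i, b i = q → ((#{x ∈ F | y x = b} : ℕ) : ℝ) = C * ∏ i, w i (b i)) :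
    ∀ i k, i ≠ k → ∀ r r' s s', r < r' → s < s' →
      N F y i k r s * N F y i k r' s' ≤ N F y i k r s' * N F y i k r' s := by
  intro i k hik r r' s s' hr hs
  obtain ⟨l, hi, hk, hu⟩ : ∃ l, i ≠ l ∧ k ≠ l ∧ (univ : Finset (Fin 3)) = {i, k, l} := by
    revert i k; decide
  have hs3 : ∀ b : Fin 3 → ℕ, ∑ j, b j = b i + b k + b l := fun b => by
    rw [hu, sum_insert (by simp [hik, hi]), sum_insert (by simp [hk]), sum_singleton, add_assoc]
  have hN : ∀ r s t, r + s + t = q → N F y i k r s = C * (w i r * w k s * w l t) := by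
    intro r s t h
    let b : Fin 3 → ℕ := fun j => if j = i then r else if j = k then s else t
    have b1 : b i = r := by simp [b]
    have b2 : b k = s := by simp [b, hik.symm]
    have b3 : b l = t := by simp [b, hi.symm, hk.symm]
    have := hc b (by rw [hs3, b1, b2, b3, h])
    rw [hu, prod_insert (by simp [hik, hi]), prod_insert (by simp [hk]), prod_singleton, b1, b2, b3,
      ← mul_assoc (w i r)] at this
    rw [← this, N]
    congr 2
    refine filter_congr fun x hx => ⟨fun hx' => ?_, fun hx' => by rw [hx']; exact ⟨b1, b2⟩⟩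
    have e := hq x hx
    rw [hs3] at e
    funext j
    have hj : j ∈ ({i, k, l} : Finset (Fin 3)) := hu ▸ mem_univ j
    simp only [mem_insert, mem_singleton] at hj
    rcases hj with rfl | rfl | rfl <;> omega
  by_cases h : r' + s' ≤ q
  · obtain ⟨u, hu'⟩ := Nat.exists_eq_add_of_le h
    obtain ⟨d, rfl⟩ := Nat.exists_eq_add_of_le hr.le
    obtain ⟨e, rfl⟩ := Nat.exists_eq_add_of_le hs.le
    rw [hN r s (u + e + d) (by omega), hN (r + d) (s + e) u (by omega),
      hN r (s + e) (u + d) (by omega), hN (r + d) s (u + e) (by omega)]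
    have := mul_le_mul_of_nonneg_left (hl l u (u + e) d (by omega))
      (show 0 ≤ C ^ 2 * (w i r * w k s * (w i (r + d) * w k (s + e))) by
        have := hw i r; have := hw k s; have := hw i (r + d); have := hw k (s + e); positivity)
    linarith
  · have : N F y i k r' s' = 0 := by
      simp only [N, Nat.cast_eq_zero, card_eq_zero, filter_eq_empty_iff]
      intro x hx hx'
      have e := hq x hx
      rw [hs3] at e
      omega
    rw [this, mul_zero]
    exact mul_nonneg (Nat.cast_nonneg _) (Nat.cast_nonneg _)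

end Crest.Agent.Sw.TA
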