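import Crest.Agent.Sw.ThreeA

/-! Row 299, part T: averaging over type-preserving column permutations, orbit counting. -/

set_option autoImplicit false
set_option linter.unusedSectionVars false
open Finset Equiv

namespace Crest.Agent.Sw.TA

lemma pair {β : Type} (C : Finset β) (v : β → Fin 3 → ℝ)
    (h : ∀ a ∈ C, ∀ b ∈ C, ∃ i, v a i = v b i) :
    Q (fun i => ∑ a ∈ C, v a i) ≤ #C * ∑ a ∈ C, Q (v a) := by
  let B : β → β → ℝ := fun a b => 2 * (v a 0 * v b 0 + v a 1 * v b 1 + v a 2 * v b 2) -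
    (v a 0 + v a 1 + v a 2) * (v b 0 + v b 1 + v b 2)
  have e1 : Q (fun i => ∑ a ∈ C, v a i) = ∑ a ∈ C, ∑ b ∈ C, B a b := by
    simp only [Q, Fin.sum_univ_three, sq, ← sum_add_distrib, sum_mul_sum]
    simp only [mul_sum, ← sum_sub_distrib, B]
  have e2 : 2 * (#C * ∑ a ∈ C, Q (v a)) = ∑ a ∈ C, ∑ b ∈ C, (Q (v a) + Q (v b)) := by
    simp only [sum_add_distrib, sum_const, nsmul_eq_mul, ← mul_sum]
    ring
  have e3 : ∑ a ∈ C, ∑ b ∈ C, 2 * B a b ≤ ∑ a ∈ C, ∑ b ∈ C, (Q (v a) + Q (v b)) := by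
    refine sum_le_sum fun a ha => sum_le_sum fun b hb => ?_
    obtain ⟨i, hi⟩ := h a ha b hb
    simp only [Q, Fin.sum_univ_three, B]
    fin_cases i
    · simp only [Fin.zero_eta] at hi
      rw [hi]
      nlinarith [sq_nonneg (v a 1 - v b 1 - (v a 2 - v b 2))]
    · simp only [Fin.mk_one] at hi
      rw [hi]
      nlinarith [sq_nonneg (v a 0 - v b 0 - (v a 2 - v b 2))]
    · simp only [Fin.reduceFinMk] at hi
      rw [hi]
      nlinarith [sq_nonneg (v a 0 - v b 0 - (v a 1 - v b 1))]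
  simp only [← mul_sum] at e3
  linarith

variable {V : Type} [Fintype V] [DecidableEq V] (γ : V → ℕ)

/-- type-preserving permutations supported in `U` -/
def GG (U : Finset V) : Finset (Perm V) :=
  univ.filter fun σ => (∀ c, γ (σ c) = γ c) ∧ ∀ c, c ∉ U → σ c = c

lemma mem_GG {U : Finset V} {σ : Perm V} :
    σ ∈ GG γ U ↔ (∀ c, γ (σ c) = γ c) ∧ ∀ c, c ∉ U → σ c = c := by simp [GG]

lemma γ_swap {a b : V} (h : γ a = γ b) (x : V) : γ (swap a b x) = γ x := by
  rw [swap_apply_def]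
  split_ifs with h1 h2
  · rw [h1, h]
  · rw [h2, h]
  · rfl

lemma swap_mul_mem {W : Finset V} {a b : V} (ha : a ∈ W) (hb : b ∈ W) (h : γ a = γ b) {σ : Perm V}
    (hσ : σ ∈ GG γ W) : swap a b * σ ∈ GG γ W := by
  rw [mem_GG] at hσ ⊢
  refine ⟨fun c => by rw [Perm.mul_apply, γ_swap γ h, hσ.1], fun c hc => ?_⟩
  rw [Perm.mul_apply, hσ.2 c hc, swap_apply_of_ne_of_ne] <;> rintro rfl <;> contradiction

lemma fib2 {W : Finset V} {a b : V} (ha : a ∈ W) (hb : b ∈ W) (h : γ a = γ b) (c : V)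
    (φ : Perm V → ℝ) :
    ∑ σ ∈ GG γ W with σ c = b, φ σ = ∑ σ ∈ GG γ W with σ c = a, φ (swap a b * σ) := by
  refine sum_nbij' (fun σ => swap a b * σ) (fun σ => swap a b * σ) ?_ ?_ ?_ ?_ ?_
  · intro σ hσ
    rw [mem_filter] at hσ ⊢
    exact ⟨swap_mul_mem γ ha hb h hσ.1, by simp [hσ.2]⟩
  · intro σ hσ
    rw [mem_filter] at hσ ⊢
    exact ⟨swap_mul_mem γ ha hb h hσ.1, by simp [hσ.2]⟩
  all_goals intro σ _; simp [swap_mul_self_mul]

lemma fib1 {U : Finset V} {c : V} (hc : c ∉ U) :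
    (GG γ (insert c U)).filter (fun σ => σ c = c) = GG γ U := by
  ext σ
  simp only [mem_filter, mem_GG, mem_insert, not_or]
  constructor
  · rintro ⟨⟨h1, h2⟩, h3⟩
    refine ⟨h1, fun x hx => ?_⟩
    by_cases h : x = c
    · rw [h, h3]
    · exact h2 x ⟨h, hx⟩
  · rintro ⟨h1, h2⟩
    exact ⟨⟨h1, fun x hx => h2 x hx.2⟩, h2 c hc⟩

lemma same_card : ∀ P P' : Finset (Fin 3), #P = #P' → ∃ i, (i ∈ P ↔ i ∈ P') := by decide

theorem avg (h : (V → Finset (Fin 3)) → Fin 3 → ℝ)
    (hh : ∀ f f' i, (∀ c, i ∈ f c ↔ i ∈ f' c) → h f i = h f' i) (U : Finset V) :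
    ∀ f : V → Finset (Fin 3), (∀ c, #(f c) = γ c) →
      Q (fun i => ∑ σ ∈ GG γ U, h (f ∘ σ) i) ≤ #(GG γ U) * ∑ σ ∈ GG γ U, Q (h (f ∘ σ)) := by
  induction U using Finset.induction_on with
  | empty =>
    intro f _
    have : GG γ ∅ = {1} := by
      ext σ
      simp only [mem_GG, notMem_empty, not_false_eq_true, forall_const, mem_singleton]
      exact ⟨fun h => Equiv.ext h.2, by rintro rfl; simp⟩
    simp [this]
  | insert c U hc ih =>
    intro f hf
    let C := (insert c U).filter fun a => γ c = γ a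
    have hm : ∀ σ ∈ GG γ (insert c U), σ c ∈ C := by
      intro σ hσ
      rw [mem_GG] at hσ
      refine mem_filter.2 ⟨?_, (hσ.1 c).symm⟩
      by_contra hn
      have := σ.injective (hσ.2 _ hn)
      exact hn (this.symm ▸ mem_insert_self c U)
    have fib : ∀ a ∈ C, ∀ φ : Perm V → ℝ, ∑ σ ∈ GG γ (insert c U) with σ c = a, φ σ =
        ∑ σ ∈ GG γ U, φ (swap c a * σ) := fun a ha φ => by
      rw [fib2 γ (mem_insert_self c U) (mem_filter.1 ha).1 (mem_filter.1 ha).2, fib1 γ hc]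
    have hcard : (#(GG γ (insert c U)) : ℝ) = #C * #(GG γ U) := by
      have := sum_fiberwise_of_maps_to hm fun _ => (1 : ℝ)
      rw [sum_congr rfl fun a ha => fib a ha _] at this
      simpa using this.symm
    let v : V → Fin 3 → ℝ := fun a i => ∑ σ ∈ GG γ (insert c U) with σ c = a, h (f ∘ σ) i
    have h1 := pair C v (by
      intro a ha b hb
      have hab : γ a = γ b := (mem_filter.1 ha).2.symm.trans (mem_filter.1 hb).2
      obtain ⟨i, hi⟩ := same_card (f a) (f b) (by rw [hf, hf, hab])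
      refine ⟨i, ?_⟩
      simp only [v]
      rw [fib2 γ (mem_filter.1 ha).1 (mem_filter.1 hb).1 hab]
      refine sum_congr rfl fun σ _ => hh _ _ _ fun x => ?_
      simp only [Function.comp_apply, Perm.mul_apply, swap_apply_def]
      split_ifs with h1 h2
      · rw [h1, hi]
      · rw [h2, hi]
      · rfl)
    have h2 : ∀ a ∈ C, Q (v a) ≤
        #(GG γ U) * ∑ σ ∈ GG γ (insert c U) with σ c = a, Q (h (f ∘ σ)) := by
      intro a ha
      have := ih (f ∘ swap c a) fun x => by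
        rw [Function.comp_apply, hf, γ_swap γ (mem_filter.1 ha).2]
      rw [fib a ha, show v a = _ from funext fun i => fib a ha _]
      exact this
    have h3 := sum_le_sum h2
    rw [← mul_sum, sum_fiberwise_of_maps_to hm] at h3
    have h4 : (fun i => ∑ a ∈ C, v a i) = fun i => ∑ σ ∈ GG γ (insert c U), h (f ∘ σ) i :=
      funext fun i => sum_fiberwise_of_maps_to hm _
    rw [← h4, hcard, mul_assoc]
    exact h1.trans (mul_le_mul_of_nonneg_left h3 (Nat.cast_nonneg _))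

/-- functions with equal fibre sizes differ by a bijection -/
lemma exists_equiv {W ι : Type} [Fintype W] [DecidableEq ι] (f : V → ι) (f' : W → ι)
    (h : ∀ P, #{c | f c = P} = #{w | f' w = P}) : ∃ e : V ≃ W, ∀ c, f' (e c) = f c :=
  ⟨Equiv.ofFiberEquiv fun P => Fintype.equivOfCardEq (by
    rw [Fintype.card_subtype, Fintype.card_subtype, h]), Equiv.ofFiberEquiv_map _⟩

variable {ι : Type} [Fintype ι] [DecidableEq ι] (t : ι → ℕ)

lemma orbit (f : V → ι) (hf : ∀ c, t (f c) = γ c) :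
    #{f' : V → ι | (∀ c, t (f' c) = γ c) ∧ ∀ P, #{c | f' c = P} = #{c | f c = P}} *
      ∏ P, (#{c | f c = P}).factorial = #(GG γ univ) := by
  rw [card_eq_sum_card_fiberwise (f := fun σ : Perm V => f ∘ σ) (s := GG γ univ)
    (t := {f' : V → ι | (∀ c, t (f' c) = γ c) ∧ ∀ P, #{c | f' c = P} = #{c | f c = P}}),
    ← smul_eq_mul, ← sum_const]
  · refine sum_congr rfl fun f' hf' => ?_
    obtain ⟨h1, h2⟩ := (mem_filter.1 hf').2
    obtain ⟨τ, hτ⟩ := exists_equiv f' f h2
    have := DomMulAct.stabilizer_card f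
    simp only [Fintype.card_subtype] at this
    rw [← this]
    refine card_nbij' (fun σ => σ * τ) (fun σ => σ * τ⁻¹) ?_ ?_ ?_ ?_
    · intro σ hσ
      have hσ' : ∀ c, f (σ c) = f c := congrFun (mem_filter.1 hσ).2
      refine mem_filter.2 ⟨(mem_GG γ).2 ⟨fun c => ?_, by simp⟩, funext fun c => ?_⟩
      · rw [← hf, Perm.mul_apply, hσ', hτ, h1]
      · rw [Function.comp_apply, Perm.mul_apply, hσ', hτ]
    · intro σ hσ
      have hσ' : ∀ c, f (σ c) = f' c := congrFun (mem_filter.1 hσ).2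
      refine mem_filter.2 ⟨mem_univ _, funext fun c => ?_⟩
      rw [Function.comp_apply, Perm.mul_apply, hσ', ← hτ]
      simp
    all_goals intro σ _; simp
  · intro σ hσ
    refine mem_filter.2 ⟨mem_univ _, fun c => ?_, fun P => ?_⟩
    · exact (hf _).trans (((mem_GG γ).1 hσ).1 c)
    · exact card_equiv σ (by simp)

lemma cnt (f : V → ι) (p : ι → Prop) [DecidablePred p] :
    #{c | p (f c)} = ∑ P, if p P then #{c | f c = P} else 0 := by
  rw [card_eq_sum_card_fiberwise (f := f) (t := univ) fun _ _ => mem_univ _]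
  refine sum_congr rfl fun P _ => ?_
  rw [filter_filter]
  split_ifs with h
  · exact congrArg _ (filter_congr fun c _ => ⟨fun h => h.2, fun h' => ⟨h' ▸ h, h'⟩⟩)
  · exact card_eq_zero.2 (filter_eq_empty_iff.2 fun c _ h' => h (h'.2 ▸ h'.1))

lemma exists_fun (n : ι → ℕ) (h : ∀ j, #{c | γ c = j} = ∑ P, if t P = j then n P else 0) :
    ∃ f : V → ι, (∀ c, t (f c) = γ c) ∧ ∀ P, #{c | f c = P} = n P := by
  have h1 : ∀ P, #{w : Σ P, Fin (n P) | w.1 = P} = n P := by
    intro P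
    rw [card_filter, Fintype.sum_sigma, sum_eq_single P]
    · simp
    · intro b _ hb; simp [hb]
    · simp
  obtain ⟨e, he⟩ := exists_equiv γ (fun w : Σ P, Fin (n P) => t w.1) fun j => by
    rw [h, cnt (fun w : Σ P, Fin (n P) => w.1) fun P => t P = j]
    simp only [h1]
  refine ⟨fun c => (e c).1, he, fun P => ?_⟩
  rw [← h1 P]
  exact card_equiv e (by simp)

end Crest.Agent.Sw.TA
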